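import Vale.Agent.P082.Every.Iface

/-!
# Completely bounded maps and finite families
-/

namespace Vale.Agent.P082.Every.A

open scoped InnerProductSpace

universe u

variable {H : Type u} [NormedAddCommGroup H] [InnerProductSpace ℂ H] [CompleteSpace H]
variable {M : VonNeumannAlgebra H}

theorem ev_mul (ξ : H) (a b : Alg M) : ev ξ (a * b) = ev (ev ξ b) a := rfl

theorem ev_add (ξ : H) (a b : Alg M) : ev ξ (a + b) = ev ξ a + ev ξ b := rfl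

theorem ev_sub (ξ : H) (a b : Alg M) : ev ξ (a - b) = ev ξ a - ev ξ b := rfl

theorem ev_smul (c : ℂ) (ξ : H) (a : Alg M) : ev ξ (c • a) = c • ev ξ a := rfl

theorem ev_one (ξ : H) : ev ξ (1 : Alg M) = ξ := rfl

theorem ev_sum {ι : Type*} (s : Finset ι) (ξ : H) (f : ι → Alg M) :
    ev ξ (∑ i ∈ s, f i) = ∑ i ∈ s, ev ξ (f i) :=
  map_sum (⟨⟨fun a => ev ξ a, ev_add ξ⟩, fun c a => ev_smul c ξ a⟩ : Alg M →ₗ[ℂ] H) f s

theorem ev_vec_smul (c : ℂ) (ξ : H) (a : Alg M) : ev (c • ξ) a = c • ev ξ a :=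
  map_smul (a : H →L[ℂ] H) c ξ

theorem ev_vec_add (ξ ζ : H) (a : Alg M) : ev (ξ + ζ) a = ev ξ a + ev ζ a :=
  map_add (a : H →L[ℂ] H) ξ ζ

theorem ev_vec_sum {ι : Type*} (s : Finset ι) (f : ι → H) (a : Alg M) :
    ev (∑ i ∈ s, f i) a = ∑ i ∈ s, ev (f i) a :=
  map_sum (a : H →L[ℂ] H) f s

theorem inner_ev_star (η ξ : H) (a : Alg M) : ⟪η, ev ξ (star a)⟫_ℂ = ⟪ev η a, ξ⟫_ℂ := by
  show ⟪η, (star a : Alg M).1 ξ⟫_ℂ = _
  rw [StarMemClass.coe_star, ContinuousLinearMap.star_eq_adjoint,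
    ContinuousLinearMap.adjoint_inner_right]
  rfl

theorem norm_ev_le (ξ : H) (a : Alg M) : ‖ev ξ a‖ ≤ ‖a‖ * ‖ξ‖ := (a : H →L[ℂ] H).le_opNorm ξ

/-- A finite family whose squares sum to one. -/
structure Fam (M : VonNeumannAlgebra H) where
  /-- the number of members -/
  n : ℕ
  /-- the members -/
  m : Fin n → Alg M
  sum_eq : ∑ j, star (m j) * m j = 1

namespace Fam

theorem sum_norm_sq (F : Fam M) (ξ : H) : ∑ j, ‖ev ξ (F.m j)‖ ^ 2 = ‖ξ‖ ^ 2 := by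
  have h : (⟪ξ, ev ξ (∑ j, star (F.m j) * F.m j)⟫_ℂ).re = ‖ξ‖ ^ 2 := by
    rw [F.sum_eq, ev_one, inner_self_eq_norm_sq_to_K]
    simp [← Complex.ofReal_pow]
  rw [← h, ev_sum, inner_sum, Complex.re_sum]
  refine Finset.sum_congr rfl fun j _ => ?_
  rw [ev_mul, inner_ev_star, inner_self_eq_norm_sq_to_K]
  simp [← Complex.ofReal_pow]

theorem norm_sq_adj_le (F : Fam M) (u : Fin F.n → H) :
    ‖∑ j, ev (u j) (star (F.m j))‖ ^ 2 ≤ ∑ j, ‖u j‖ ^ 2 := by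
  set p := ∑ j, ev (u j) (star (F.m j)) with hp
  have h1 : (⟪p, p⟫_ℂ).re ≤ ∑ j, ‖ev p (F.m j)‖ * ‖u j‖ := by
    nth_rw 2 [hp]
    rw [inner_sum, Complex.re_sum]
    refine Finset.sum_le_sum fun j _ => ?_
    rw [inner_ev_star]
    exact (Complex.re_le_norm _).trans (norm_inner_le_norm _ _)
  rw [inner_self_eq_norm_sq_to_K] at h1
  simp [← Complex.ofReal_pow] at h1
  have h2 : 2 * ∑ j, ‖ev p (F.m j)‖ * ‖u j‖ ≤ ‖p‖ ^ 2 + ∑ j, ‖u j‖ ^ 2 := by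
    rw [← F.sum_norm_sq p, ← Finset.sum_add_distrib, Finset.mul_sum]
    exact Finset.sum_le_sum fun j _ => by nlinarith [sq_nonneg (‖ev p (F.m j)‖ - ‖u j‖)]
  linarith

/-- A family indexed by any finite type. -/
noncomputable def ofFintype {ι : Type*} [Fintype ι] (m : ι → Alg M)
    (h : ∑ j, star (m j) * m j = 1) : Fam M where
  n := Fintype.card ι
  m j := m ((Fintype.equivFin ι).symm j)
  sum_eq := by rw [(Fintype.equivFin ι).symm.sum_comp fun j => star (m j) * m j, h]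

end Fam

/-- Right multiplication. -/
noncomputable def rmul (c : Alg M) : Alg M →L[ℂ] Alg M :=
  (ContinuousLinearMap.mul ℂ (Alg M)).flip c

theorem rmul_apply (c x : Alg M) : rmul c x = x * c := rfl

/-- `x ↦ ∑ φ (x m*) m`. -/
noncomputable def TF (F : Fam M) (φ : Alg M →L[ℂ] Alg M) : Alg M →L[ℂ] Alg M :=
  ∑ j, (rmul (F.m j)).comp (φ.comp (rmul (star (F.m j))))

theorem TF_apply (F : Fam M) (φ : Alg M →L[ℂ] Alg M) (x : Alg M) :
    TF F φ x = ∑ j, φ (x * star (F.m j)) * F.m j := by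
  simp [TF, rmul_apply]

theorem TF_ofFintype {ι : Type*} [Fintype ι] (m : ι → Alg M)
    (h : ∑ j, star (m j) * m j = 1) (φ : Alg M →L[ℂ] Alg M) (x : Alg M) :
    TF (Fam.ofFintype m h) φ x = ∑ j, φ (x * star (m j)) * m j := by
  rw [TF_apply]
  exact (Fintype.equivFin ι).symm.sum_comp fun j => φ (x * star (m j)) * m j

/-- The pairing of a matrix. -/
noncomputable def pair {κ lam : Type} [Fintype κ] [Fintype lam] (φ : Alg M →L[ℂ] Alg M)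
    (Z : κ → lam → Alg M) (η : κ → H) (ξ : lam → H) : ℂ :=
  ∑ k, ∑ l, ⟪η k, ev (ξ l) (φ (Z k l))⟫_ℂ

theorem contr_reindex {κ lam κ' lam' : Type} [Fintype κ] [Fintype lam] [Fintype κ'] [Fintype lam']
    (e : κ' ≃ κ) (f : lam' ≃ lam) {Z : κ → lam → Alg M} (hZ : Contr M Z) :
    Contr M fun k l => Z (e k) (f l) := by
  intro ξ
  have h := hZ fun l => ξ (f.symm l)
  have e1 : ∀ k, ∑ l, ev (ξ l) (Z (e k) (f l)) = ∑ l, ev (ξ (f.symm l)) (Z (e k) l) := fun k => by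
    rw [← f.sum_comp fun l => ev (ξ (f.symm l)) (Z (e k) l)]
    simp
  simp only [e1]
  rw [e.sum_comp fun k => ‖∑ l, ev (ξ (f.symm l)) (Z k l)‖ ^ 2]
  exact h.trans_eq (f.symm.sum_comp fun l => ‖ξ l‖ ^ 2)

theorem pair_reindex {κ lam κ' lam' : Type} [Fintype κ] [Fintype lam] [Fintype κ'] [Fintype lam']
    (e : κ' ≃ κ) (f : lam' ≃ lam) (φ : Alg M →L[ℂ] Alg M) (Z : κ → lam → Alg M) (η : κ → H)
    (ξ : lam → H) :
    pair φ (fun k l => Z (e k) (f l)) (fun k => η (e k)) (fun l => ξ (f l)) = pair φ Z η ξ := by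
  unfold pair
  rw [← e.sum_comp fun k => ∑ l, ⟪η k, ev (ξ l) (φ (Z k l))⟫_ℂ]
  exact Finset.sum_congr rfl fun k _ =>
    f.sum_comp fun l => ⟪η (e k), ev (ξ l) (φ (Z (e k) l))⟫_ℂ

theorem pair_smul_right {κ lam : Type} [Fintype κ] [Fintype lam] (φ : Alg M →L[ℂ] Alg M)
    (Z : κ → lam → Alg M) (η : κ → H) (ξ : lam → H) (c : ℂ) :
    pair φ Z η (fun l => c • ξ l) = c * pair φ Z η ξ := by
  simp only [pair, ev_vec_smul, inner_smul_right, Finset.mul_sum]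

theorem pair_smul_left {κ lam : Type} [Fintype κ] [Fintype lam] (φ : Alg M →L[ℂ] Alg M)
    (Z : κ → lam → Alg M) (η : κ → H) (ξ : lam → H) (c : ℂ) :
    pair φ Z (fun k => c • η k) ξ = starRingEnd ℂ c * pair φ Z η ξ := by
  simp only [pair, inner_smul_left, Finset.mul_sum]

theorem _root_.Vale.Agent.P082.Every.IsCB.nonneg {φ : Alg M →L[ℂ] Alg M} {C : ℝ} (h : IsCB M φ C) : 0 ≤ C :=
  (norm_nonneg _).trans (h 0 0 (fun k => k.elim0) (fun _ => by simp) (fun k => k.elim0)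
    (fun l => l.elim0) (by simp) (by simp))

theorem _root_.Vale.Agent.P082.Every.IsCB.pair_le {φ : Alg M →L[ℂ] Alg M} {C : ℝ} (h : IsCB M φ C) {κ lam : Type} [Fintype κ]
    [Fintype lam] {Z : κ → lam → Alg M} (hZ : Contr M Z) (η : κ → H) (ξ : lam → H) :
    ‖pair φ Z η ξ‖ ≤ C * √(∑ k, ‖η k‖ ^ 2) * √(∑ l, ‖ξ l‖ ^ 2) := by
  set a := √(∑ k, ‖η k‖ ^ 2) with ha
  set b := √(∑ l, ‖ξ l‖ ^ 2) with hb
  have ha0 : 0 ≤ ∑ k, ‖η k‖ ^ 2 := Finset.sum_nonneg fun k _ => sq_nonneg _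
  have hb0 : 0 ≤ ∑ l, ‖ξ l‖ ^ 2 := Finset.sum_nonneg fun k _ => sq_nonneg _
  rcases eq_or_ne a 0 with h0 | h0
  · have : ∀ k, η k = 0 := fun k => by
      have := (Finset.sum_eq_zero_iff_of_nonneg fun k _ => sq_nonneg _).1
        ((Real.sqrt_eq_zero ha0).1 h0) k (Finset.mem_univ k)
      simpa using this
    simp [pair, this, h0]
  rcases eq_or_ne b 0 with h1 | h1
  · have : ∀ l, ξ l = 0 := fun l => by
      have := (Finset.sum_eq_zero_iff_of_nonneg fun k _ => sq_nonneg _).1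
        ((Real.sqrt_eq_zero hb0).1 h1) l (Finset.mem_univ l)
      simpa using this
    simp [pair, this, h1, ev]
  have hna : ∑ k, ‖((a⁻¹ : ℝ) : ℂ) • η k‖ ^ 2 ≤ 1 := by
    simp only [norm_smul, Complex.norm_real, Real.norm_eq_abs, mul_pow, sq_abs, ← Finset.mul_sum]
    rw [← Real.sq_sqrt ha0, ← ha, ← mul_pow, inv_mul_cancel₀ h0, one_pow]
  have hnb : ∑ l, ‖((b⁻¹ : ℝ) : ℂ) • ξ l‖ ^ 2 ≤ 1 := by
    simp only [norm_smul, Complex.norm_real, Real.norm_eq_abs, mul_pow, sq_abs, ← Finset.mul_sum]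
    rw [← Real.sq_sqrt hb0, ← hb, ← mul_pow, inv_mul_cancel₀ h1, one_pow]
  set e := Fintype.equivFin κ
  set f := Fintype.equivFin lam
  have h2 := h _ _ _ (contr_reindex e.symm f.symm hZ) (fun k => ((a⁻¹ : ℝ) : ℂ) • η (e.symm k))
    (fun l => ((b⁻¹ : ℝ) : ℂ) • ξ (f.symm l))
    ((e.symm.sum_comp fun k => ‖((a⁻¹ : ℝ) : ℂ) • η k‖ ^ 2).trans_le hna)
    ((f.symm.sum_comp fun l => ‖((b⁻¹ : ℝ) : ℂ) • ξ l‖ ^ 2).trans_le hnb)
  have h3 : ‖pair φ Z (fun k => ((a⁻¹ : ℝ) : ℂ) • η k) (fun l => ((b⁻¹ : ℝ) : ℂ) • ξ l)‖ ≤ C := by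
    rw [← pair_reindex e.symm f.symm]; exact h2
  rw [pair_smul_left, pair_smul_right, norm_mul, norm_mul] at h3
  simp only [Complex.conj_ofReal, Complex.norm_real, Real.norm_eq_abs] at h3
  have hap : 0 < a := lt_of_le_of_ne (Real.sqrt_nonneg _) (Ne.symm h0)
  have hbp : 0 < b := lt_of_le_of_ne (Real.sqrt_nonneg _) (Ne.symm h1)
  rw [abs_of_pos (inv_pos.2 hap), abs_of_pos (inv_pos.2 hbp)] at h3
  calc ‖pair φ Z η ξ‖ = a * b * (a⁻¹ * (b⁻¹ * ‖pair φ Z η ξ‖)) := by field_simp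
    _ ≤ a * b * C := mul_le_mul_of_nonneg_left h3 (by positivity)
    _ = C * a * b := by ring

theorem _root_.Vale.Agent.P082.Every.IsCB.norm_apply_le {φ : Alg M →L[ℂ] Alg M} {C : ℝ} (h : IsCB M φ C) (x : Alg M) :
    ‖φ x‖ ≤ C * ‖x‖ := by
  rcases eq_or_ne x 0 with rfl | hx
  · simp
  have hxp : 0 < ‖x‖ := norm_pos_iff.2 hx
  refine ((φ x : H →L[ℂ] H).opNorm_le_bound (mul_nonneg h.nonneg hxp.le) fun ξ => ?_ : ‖(φ x : H →L[ℂ] H)‖ ≤ _)
  set y : Alg M := ((‖x‖⁻¹ : ℝ) : ℂ) • x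
  have hy : Contr M fun (_ : Fin 1) (_ : Fin 1) => y := by
    intro v
    simp only [Fin.sum_univ_one]
    refine pow_le_pow_left₀ (norm_nonneg _) ((norm_ev_le _ _).trans_eq ?_) 2
    rw [norm_smul, Complex.norm_real, norm_inv, norm_norm, inv_mul_cancel₀ hxp.ne', one_mul]
  set w := ev ξ (φ x)
  rcases eq_or_ne w 0 with hw | hw
  · rw [show (φ x : H →L[ℂ] H) ξ = 0 from hw, norm_zero]
    exact mul_nonneg (mul_nonneg h.nonneg hxp.le) (norm_nonneg _)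
  have h1 := h.pair_le hy (fun _ => w) (fun _ => ξ)
  simp only [pair, Fin.sum_univ_one, Real.sqrt_sq (norm_nonneg _), y, map_smul, ev_smul,
    inner_smul_right, norm_mul, Complex.norm_real, norm_inv, norm_norm] at h1
  rw [inner_self_eq_norm_sq_to_K, norm_pow, RCLike.norm_ofReal, abs_norm] at h1
  have hwp : 0 < ‖w‖ := norm_pos_iff.2 hw
  have h2 : ‖x‖ * (‖x‖⁻¹ * ‖w‖ ^ 2) ≤ ‖x‖ * (C * ‖w‖ * ‖ξ‖) := mul_le_mul_of_nonneg_left h1 hxp.le
  rw [← mul_assoc, mul_inv_cancel₀ hxp.ne', one_mul] at h2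
  show ‖w‖ ≤ _
  exact le_of_mul_le_mul_left (by linarith) hwp

theorem _root_.Vale.Agent.P082.Every.IsCB.mono {φ : Alg M →L[ℂ] Alg M} {C C' : ℝ} (h : IsCB M φ C) (hC : C ≤ C') :
    IsCB M φ C' :=
  fun K L Z hZ η ξ hη hξ => (h K L Z hZ η ξ hη hξ).trans hC

theorem isCB_zero : IsCB M (0 : Alg M →L[ℂ] Alg M) 0 := fun K L Z _ η ξ _ _ => by simp [ev]

theorem _root_.Vale.Agent.P082.Every.IsCB.add {φ ψ : Alg M →L[ℂ] Alg M} {C D : ℝ} (h : IsCB M φ C) (h' : IsCB M ψ D) :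
    IsCB M (φ + ψ) (C + D) := fun K L Z hZ η ξ hη hξ => by
  simp only [add_apply, ev_add, inner_add_right, Finset.sum_add_distrib]
  exact (norm_add_le _ _).trans (add_le_add (h K L Z hZ η ξ hη hξ) (h' K L Z hZ η ξ hη hξ))

theorem _root_.Vale.Agent.P082.Every.IsCB.smul {φ : Alg M →L[ℂ] Alg M} {C : ℝ} (h : IsCB M φ C) (c : ℂ) :
    IsCB M (c • φ) (‖c‖ * C) := fun K L Z hZ η ξ hη hξ => by
  simp only [smul_apply, ev_smul, inner_smul_right, ← Finset.mul_sum, norm_mul]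
  exact mul_le_mul_of_nonneg_left (h K L Z hZ η ξ hη hξ) (norm_nonneg _)

theorem _root_.Vale.Agent.P082.Every.IsCB.comp_left {φ : Alg M →L[ℂ] Alg M} {C : ℝ} (h : IsCB M φ C) (c : Alg M) :
    IsCB M ((ContinuousLinearMap.mul ℂ (Alg M) c).comp φ) (C * ‖c‖) := fun K L Z hZ η ξ hη hξ => by
  have e : ∀ k l, ⟪η k, ev (ξ l) (((ContinuousLinearMap.mul ℂ (Alg M) c).comp φ) (Z k l))⟫_ℂ =
      ⟪ev (η k) (star c), ev (ξ l) (φ (Z k l))⟫_ℂ := fun k l => by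
    show ⟪η k, ev (ξ l) (c * φ (Z k l))⟫_ℂ = _
    rw [ev_mul, ← inner_ev_star, star_star]
  simp only [e]
  refine (h.pair_le hZ (fun k => ev (η k) (star c)) ξ).trans ?_
  have h1 : √(∑ k, ‖ev (η k) (star c)‖ ^ 2) ≤ ‖c‖ := by
    rw [Real.sqrt_le_iff]
    refine ⟨norm_nonneg _, (Finset.sum_le_sum (g := fun k => ‖c‖ ^ 2 * ‖η k‖ ^ 2)
      fun k _ => ?_).trans ?_⟩
    · rw [← mul_pow]
      exact pow_le_pow_left₀ (norm_nonneg _)
        ((norm_ev_le _ _).trans_eq (by rw [norm_star])) 2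
    · rw [← Finset.mul_sum]
      exact mul_le_of_le_one_right (sq_nonneg _) hη
  have h2 : √(∑ l, ‖ξ l‖ ^ 2) ≤ 1 := Real.sqrt_le_one.2 hξ
  exact mul_le_of_le_one_right (mul_nonneg h.nonneg (Real.sqrt_nonneg _)) h2 |>.trans
    (mul_le_mul_of_nonneg_left h1 h.nonneg)

theorem _root_.Vale.Agent.P082.Every.IsCB.comp_right {φ : Alg M →L[ℂ] Alg M} {C : ℝ} (h : IsCB M φ C) (v : Alg M) :
    IsCB M (φ.comp (ContinuousLinearMap.mul ℂ (Alg M) v)) (C * ‖v‖) := by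
  rcases eq_or_ne v 0 with rfl | hv
  · intro K L Z _ η ξ _ _
    simp [ev]
  have hvp : 0 < ‖v‖ := norm_pos_iff.2 hv
  intro K L Z hZ η ξ hη hξ
  set w : Alg M := ((‖v‖⁻¹ : ℝ) : ℂ) • v with hw
  have hwn : ‖w‖ ≤ 1 := by
    rw [hw, norm_smul, Complex.norm_real, norm_inv, norm_norm, inv_mul_cancel₀ hvp.ne']
  have hZ' : Contr M fun k l => w * Z k l := by
    intro x
    refine le_trans (Finset.sum_le_sum fun k _ => ?_) (hZ x)
    rw [show ∑ l, ev (x l) (w * Z k l) = ev (∑ l, ev (x l) (Z k l)) w by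
      simp only [ev_mul, ev_vec_sum]]
    exact pow_le_pow_left₀ (norm_nonneg _)
      ((norm_ev_le _ _).trans (mul_le_of_le_one_left (norm_nonneg _) hwn)) 2
  have e : ∑ k, ∑ l, ⟪η k, ev (ξ l) ((φ.comp (ContinuousLinearMap.mul ℂ (Alg M) v)) (Z k l))⟫_ℂ =
      ((‖v‖ : ℝ) : ℂ) * ∑ k, ∑ l, ⟪η k, ev (ξ l) (φ (w * Z k l))⟫_ℂ := by
    simp only [hw, smul_mul_assoc, map_smul, ev_smul, inner_smul_right, Finset.mul_sum,
      ← mul_assoc, ← Complex.ofReal_mul, mul_inv_cancel₀ hvp.ne', Complex.ofReal_one, one_mul]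
    rfl
  rw [e, norm_mul, Complex.norm_real, norm_norm, mul_comm C]
  exact mul_le_mul_of_nonneg_left (h K L _ hZ' η ξ hη hξ) hvp.le

theorem _root_.Vale.Agent.P082.Every.IsCB.sum_ev {φ : Alg M →L[ℂ] Alg M} {C : ℝ} (h : IsCB M φ C) (F : Fam M) :
    IsCB M (TF F φ) C := by
  intro K L Z hZ η ξ hη hξ
  have hZ' : Contr M fun k (p : Fin L × Fin F.n) => Z k p.1 * star (F.m p.2) := by
    intro v
    have e : ∀ k, ∑ p : Fin L × Fin F.n, ev (v p) (Z k p.1 * star (F.m p.2)) =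
        ∑ l, ev (∑ j, ev (v (l, j)) (star (F.m j))) (Z k l) := fun k => by
      simp only [Fintype.sum_prod_type, ev_mul, ev_vec_sum]
    simp only [e]
    refine (hZ _).trans ?_
    rw [Fintype.sum_prod_type]
    exact Finset.sum_le_sum fun l _ => F.norm_sq_adj_le _
  have e : ∑ k, ∑ l, ⟪η k, ev (ξ l) (TF F φ (Z k l))⟫_ℂ =
      pair φ (fun k (p : Fin L × Fin F.n) => Z k p.1 * star (F.m p.2)) η
        (fun p => ev (ξ p.1) (F.m p.2)) := by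
    simp only [pair, TF_apply, ev_sum, inner_sum, Fintype.sum_prod_type, ev_mul]
  rw [e]
  refine (h.pair_le hZ' _ _).trans ?_
  have h1 : √(∑ p : Fin L × Fin F.n, ‖ev (ξ p.1) (F.m p.2)‖ ^ 2) ≤ 1 := by
    rw [Real.sqrt_le_one, Fintype.sum_prod_type]
    simp only [F.sum_norm_sq]
    exact hξ
  exact (mul_le_of_le_one_right (mul_nonneg h.nonneg (Real.sqrt_nonneg _)) h1).trans
    (mul_le_of_le_one_right h.nonneg (Real.sqrt_le_one.2 hη))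

/-- The completely bounded maps. -/
def Cb (M : VonNeumannAlgebra H) : Submodule ℂ (Alg M →L[ℂ] Alg M) where
  carrier := {φ | ∃ C, IsCB M φ C}
  zero_mem' := ⟨0, isCB_zero⟩
  add_mem' := fun {_ _} ⟨C, hC⟩ ⟨D, hD⟩ => ⟨C + D, hC.add hD⟩
  smul_mem' := fun c _ ⟨C, hC⟩ => ⟨‖c‖ * C, hC.smul c⟩

theorem mem_Cb {φ : Alg M →L[ℂ] Alg M} : φ ∈ Cb M ↔ ∃ C, IsCB M φ C := Iff.rfl

theorem mul_mem_Cb (c : Alg M) : ContinuousLinearMap.mul ℂ (Alg M) c ∈ Cb M := by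
  have h1 : IsCB M (ContinuousLinearMap.id ℂ (Alg M)) 1 := fun K L Z hZ η ξ hη hξ => by
    have e : ∀ k, ∑ l, ⟪η k, ev (ξ l) (ContinuousLinearMap.id ℂ (Alg M) (Z k l))⟫_ℂ =
        ⟪η k, ∑ l, ev (ξ l) (Z k l)⟫_ℂ := fun k => by simp
    simp only [e]
    refine (norm_sum_le _ _).trans ?_
    refine le_trans (Finset.sum_le_sum (g := fun k =>
      (‖η k‖ ^ 2 + ‖∑ l, ev (ξ l) (Z k l)‖ ^ 2) / 2) fun k _ => ?_) ?_
    · refine (norm_inner_le_norm _ _).trans ?_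
      nlinarith [sq_nonneg (‖η k‖ - ‖∑ l, ev (ξ l) (Z k l)‖)]
    · rw [← Finset.sum_div, Finset.sum_add_distrib]
      have := (hZ ξ).trans hξ
      linarith
  exact ⟨_, h1.comp_left c⟩

end Vale.Agent.P082.Every.A
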