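import Vale.Agent.P082.Every.A.Basic
import Vale.Agent.P082.Scope.Sums
import Vale.Agent.P078.General.Trace

/-!
# Partial isometries covering the central support of a large spectral projection
-/

namespace Vale.Agent.P082.Every.A

open scoped InnerProductSpace
open Vale.Agent.P078.General Vale.Agent.P132.Homog Scope

universe u

variable {H : Type u} [NormedAddCommGroup H] [InnerProductSpace ℂ H] [CompleteSpace H]
variable {M : VonNeumannAlgebra H}

theorem exists_big (M : VonNeumannAlgebra H) {D : H →L[ℂ] H} (hD : D ∈ M) (hD0 : D ≠ 0) :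
    ∃ e ∈ M, IsStarProjection e ∧ e ≠ 0 ∧
      ∃ κ : ℝ, 0 < κ ∧ ∀ u, κ * ‖e u‖ ≤ ‖D (e u)‖ := by
  set h := CFC.sqrt (star D * D) with hh
  have h0 : 0 ≤ h := CFC.sqrt_nonneg _
  have hs : star h = h := h0.isSelfAdjoint.star_eq
  have hsq : h * h = star D * D := CFC.sqrt_mul_sqrt_self _ (star_mul_self_nonneg D)
  have hM : h ∈ M := mem_of_commute_commutant M fun y hy => by
    rw [hh, CFC.sqrt_eq_real_sqrt _ (star_mul_self_nonneg D)]
    exact (Commute.cfcₙ_real
      (VonNeumannAlgebra.mem_commutant_iff.1 hy _ (mul_mem (star_mem hD) hD)) _).symm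
  have hn : ∀ v, ‖D v‖ = ‖h v‖ := fun v => by
    have e : (⟪D v, D v⟫_ℂ) = ⟪h v, h v⟫_ℂ := by
      rw [← ContinuousLinearMap.adjoint_inner_right, ← ContinuousLinearMap.adjoint_inner_right h,
        ← ContinuousLinearMap.star_eq_adjoint, ← ContinuousLinearMap.star_eq_adjoint,
        ← mul_apply_eq_comp, ← mul_apply_eq_comp, hs, hsq]
    rw [@norm_eq_sqrt_re_inner ℂ, @norm_eq_sqrt_re_inner ℂ _ _ _ _ (h v), e]
  have hDp : 0 < ‖D‖ := norm_pos_iff.2 hD0
  set δ := ‖D‖ / 4 with hδdef
  have hδ : 0 < δ := by positivity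
  obtain ⟨n, E, C, g, hE, -, hsum, hC, -, hCn, hEn, -⟩ := exists_grid M hM h0 hδ
  by_cases hex : ∃ i : Fin n, 1 ≤ (i : ℕ) ∧ E i ≠ 0
  · obtain ⟨i, hi, hi0⟩ := hex
    refine ⟨E i, (hE i).1, (hE i).2.1, hi0, δ, hδ, fun u => ?_⟩
    rw [hn]
    have h1 := norm_sub_norm_le ((((((i : ℕ) : ℝ) + 1) * δ : ℝ) : ℂ) • E i u) (h (E i u))
    rw [norm_sub_rev, norm_smul, Complex.norm_real, Real.norm_eq_abs,
      abs_of_nonneg (by positivity)] at h1
    have h2 := hEn i u
    have hi' : (1 : ℝ) ≤ ((i : ℕ) : ℝ) := by exact_mod_cast hi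
    have h3 : (0 : ℝ) ≤ (((i : ℕ) : ℝ) - 1) * (δ * ‖E i u‖) :=
      mul_nonneg (by linarith) (by positivity)
    nlinarith [h1, h2, h3]
  · exfalso
    push Not at hex
    have hb : ∀ u, ‖h u‖ ≤ 3 * δ * ‖u‖ := by
      intro u
      have e : h u = h (C u) + ∑ i, h (E i u) := by
        rw [← map_sum, ← map_add, ← sum_apply, ← add_apply, hsum, one_apply_eq_self]
      have hsingle : ∀ i : Fin n, ‖h (E i u)‖ ≤ if (i : ℕ) = 0 then 2 * δ * ‖u‖ else 0 := by
        intro i
        split_ifs with hi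
        · have h1 := norm_le_norm_add_norm_sub' (h (E i u))
            ((((((i : ℕ) : ℝ) + 1) * δ : ℝ) : ℂ) • E i u)
          rw [norm_smul, Complex.norm_real, Real.norm_eq_abs, abs_of_nonneg (by positivity)] at h1
          have h2 := hEn i u
          have h3 := mul_le_mul_of_nonneg_left (norm_proj_le (hE i).2.1 u) hδ.le
          simp only [hi, Nat.cast_zero, zero_add, one_mul] at h1 h2
          linarith
        · simp [hex i (Nat.one_le_iff_ne_zero.2 hi)]
      have hsum2 : ∑ i : Fin n, ‖h (E i u)‖ ≤ 2 * δ * ‖u‖ := by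
        refine (Finset.sum_le_sum fun i _ => hsingle i).trans ?_
        rw [Fin.sum_univ_eq_sum_range (fun i => if i = 0 then 2 * δ * ‖u‖ else 0),
          Finset.sum_ite_eq' (Finset.range n) 0 fun _ => 2 * δ * ‖u‖]
        split_ifs
        · rfl
        · positivity
      rw [e]
      refine (norm_add_le _ _).trans ?_
      have h4 := (hCn u).trans (mul_le_mul_of_nonneg_left (norm_proj_le hC u) hδ.le)
      linarith [norm_sum_le Finset.univ fun i => h (E i u)]
    have : ‖D‖ ≤ 3 * δ := D.opNorm_le_bound (by positivity) fun u => (hn u).trans_le (hb u)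
    linarith

/-- What the defect argument needs from an element `D ≠ 0`. -/
structure Cover (D : Alg M) where
  /-- the index type -/
  ι : Type u
  /-- the central support -/
  z : Alg M
  /-- the partial isometries -/
  v : ι → Alg M
  /-- the lower bound -/
  κ : ℝ
  κ_pos : 0 < κ
  central : ∀ x, z * x = x * z
  proj : z * z = z
  v_z : ∀ i, v i * z = v i
  proj_sum : ∀ J : Finset ι, IsStarProjection (∑ i ∈ J, star (v i) * v i)
  hasSum : ∀ ξ : H, HasSum (fun i => ‖ev ξ (v i)‖ ^ 2) (‖ev ξ z‖ ^ 2)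
  lower : ∀ i ξ, κ * ‖ev ξ (v i)‖ ≤ ‖ev ξ (D * v i)‖
  ne_zero : z * D ≠ 0

theorem exists_cover {D : Alg M} (hD : D ≠ 0) : Nonempty (Cover D) := by
  obtain ⟨e, heM, hep, he0, κ, hκ, hlow⟩ := exists_big M D.2 fun h => hD (Subtype.ext h)
  set S : Set (Set (H →L[ℂ] H)) := {B | (∀ w ∈ B, w ∈ M ∧ w * (star w * w) = w ∧ e * w = w) ∧
    ∀ w ∈ B, ∀ w' ∈ B, w ≠ w' → (star w * w) * (star w' * w') = 0} with hS
  obtain ⟨B, ⟨hB1, hB2⟩, hmax⟩ := zorn_subset S fun c hc hchain => by
    refine ⟨⋃₀ c, ⟨?_, ?_⟩, fun a ha => Set.subset_sUnion_of_mem ha⟩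
    · rintro w ⟨a, ha, hw⟩
      exact (hc ha).1 w hw
    · rintro w ⟨a, ha, hw⟩ w' ⟨b, hb, hw'⟩ hne
      rcases hchain.total ha hb with h | h
      · exact (hc hb).2 w (h hw) w' hw' hne
      · exact (hc ha).2 w hw w' (h hw') hne
  have hsp : ∀ i : B, IsStarProjection (star i.1 * i.1) := fun i =>
    ⟨by rw [IsIdempotentElem, mul_assoc, (hB1 _ i.2).2.1], IsSelfAdjoint.star_mul_self _⟩
  have hd : IsDiag (fun i : B => star i.1 * i.1) fun i => star i.1 * i.1 :=
    { proj := hsp
      orth := fun i j hij => hB2 _ i.2 _ j.2 fun h => hij (Subtype.ext h)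
      left := fun i => (hsp i).isIdempotentElem.eq
      right := fun i => (hsp i).isIdempotentElem.eq
      norm_le := fun i => IsStarProjection.norm_le _ (hsp i) }
  set z := hd.sum with hz
  have hzM : z ∈ M := hd.sum_mem fun i => mul_mem (star_mem (hB1 _ i.2).1) (hB1 _ i.2).1
  have hzp : IsStarProjection z := by
    refine ⟨?_, ?_⟩
    · show z * z = z
      rw [hz, hd.sum_mul hd]
      refine ContinuousLinearMap.ext fun v => ?_
      rw [IsDiag.sum_apply, IsDiag.sum_apply]
      exact tsum_congr fun i => congrArg (· v) (hsp i).isIdempotentElem.eq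
    · show star z = z
      rw [hz, hd.star_sum]
      refine ContinuousLinearMap.ext fun v => ?_
      rw [IsDiag.sum_apply, IsDiag.sum_apply]
      exact tsum_congr fun i => congrArg (· v) (hsp i).isSelfAdjoint.star_eq
  have hvz : ∀ i : B, i.1 * z = i.1 := fun i => by
    refine ContinuousLinearMap.ext fun v => ?_
    rw [mul_apply_eq_comp, hz, IsDiag.sum_apply, i.1.map_tsum (hd.summable v),
      tsum_eq_single i fun j hj => ?_]
    · exact congrArg (fun T : H →L[ℂ] H => T v) (hB1 _ i.2).2.1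
    · rw [← mul_apply_eq_comp, ← (hB1 _ i.2).2.1, mul_assoc,
        hB2 _ i.2 _ j.2 fun h => hj (Subtype.ext h).symm, mul_zero]
      rfl
  have hkey : ∀ y ∈ M, e * y * (1 - z) = 0 := by
    intro y hy
    by_contra hne
    set x := e * y * (1 - z) with hx
    have hxM : x ∈ M := mul_mem (mul_mem heM hy) (sub_mem (one_mem M) hzM)
    obtain ⟨v, hv⟩ : ∃ v, x v ≠ 0 := by
      by_contra h
      push Not at h
      exact hne (ContinuousLinearMap.ext h)
    have hδ : 0 < ‖x v‖ / (4 * (‖v‖ + 1)) := div_pos (norm_pos_iff.2 hv) (by positivity)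
    obtain ⟨n, w, hfam, hl, hrt, happ⟩ := exists_fam M hxM hδ
    obtain ⟨i, hi⟩ : ∃ i, w i ≠ 0 := by
      by_contra h
      push Not at h
      have h1 := happ v
      simp only [h, smul_zero, Finset.sum_const_zero, zero_apply, sub_zero] at h1
      have h2 : 2 * (‖x v‖ / (4 * (‖v‖ + 1))) * ‖v‖ < ‖x v‖ := by
        rw [← mul_div_assoc, div_mul_eq_mul_div, div_lt_iff₀ (by positivity)]
        nlinarith [norm_pos_iff.2 hv, norm_nonneg v]
      linarith
    have hzi : (1 - z) * (1 - z) = 1 - z := hzp.one_sub.isIdempotentElem.eq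
    have h1 : e * w i = w i :=
      hl e (by rw [hx, ← mul_assoc, ← mul_assoc, hep.isIdempotentElem.eq]) i
    have h2 : w i * (1 - z) = w i := hrt (1 - z) (by rw [hx, mul_assoc (e * y), hzi]) i
    have hwz : w i * z = 0 := by
      rwa [mul_sub, mul_one, sub_eq_self] at h2
    have horth : ∀ w' ∈ B, (star (w i) * w i) * (star w' * w') = 0 := fun w' hw' => by
      have e1 : z * (star w' * w') = star w' * w' := by
        have := congrArg star (hvz ⟨w', hw'⟩)
        simp only [star_mul, hzp.isSelfAdjoint.star_eq] at this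
        rw [← mul_assoc, this]
      rw [← e1, mul_assoc (star (w i)), ← mul_assoc (w i), hwz, zero_mul, mul_zero]
    have hin : insert (w i) B ∈ S := by
      refine ⟨?_, ?_⟩
      · rintro a (rfl | ha)
        exacts [⟨hfam.mem i, hfam.pi i, h1⟩, hB1 a ha]
      · rintro a (rfl | ha) b (rfl | hb) hab
        · exact absurd rfl hab
        · exact horth b hb
        · have := congrArg star (horth a ha)
          simpa only [star_mul, star_star, star_zero, mul_assoc] using this
        · exact hB2 a ha b hb hab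
    have hmem : w i ∈ B := hmax hin (Set.subset_insert _ _) (Set.mem_insert _ _)
    exact hi ((hvz ⟨_, hmem⟩).symm.trans hwz)
  have hze : z * e = e := by
    have := congrArg star (hkey 1 (one_mem M))
    rw [star_mul, star_mul, star_one, one_mul, star_zero, hzp.one_sub.isSelfAdjoint.star_eq,
      hep.isSelfAdjoint.star_eq, sub_mul, one_mul, sub_eq_zero] at this
    exact this.symm
  have hcorner : ∀ y ∈ M, z * y * (1 - z) = 0 := fun y hy => by
    refine ContinuousLinearMap.ext fun u => ?_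
    rw [mul_apply_eq_comp, mul_apply_eq_comp, hz, IsDiag.sum_apply]
    refine (tsum_congr fun i => ?_).trans tsum_zero
    have h0 : star i.1 * i.1 * y * (1 - z) = 0 := by
      have : star i.1 * i.1 * y * (1 - z) = star i.1 * (e * (i.1 * y) * (1 - z)) := by
        simp only [← mul_assoc]
        rw [mul_assoc (star i.1) e i.1, (hB1 _ i.2).2.2]
      rw [this, hkey _ (mul_mem (hB1 _ i.2).1 hy), mul_zero]
    exact congrArg (fun T : H →L[ℂ] H => T u) h0
  have hzc : ∀ y ∈ M, z * y = y * z := fun y hy => by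
    have h1 : z * y = z * y * z := by
      have := hcorner y hy
      rwa [mul_sub, mul_one, sub_eq_zero] at this
    have h2 : y * z = z * y * z := by
      have := congrArg star (hcorner _ (star_mem hy))
      simp only [star_mul, star_star, star_zero, star_sub, star_one,
        hzp.isSelfAdjoint.star_eq, sub_mul, one_mul, sub_eq_zero] at this
      rwa [← mul_assoc] at this
    exact h1.trans h2.symm
  have hev : ∀ (v : H) (i : B), e (i.1 v) = i.1 v := fun v i =>
    congrArg (fun T : H →L[ℂ] H => T v) (hB1 _ i.2).2.2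
  refine ⟨{
    ι := B
    z := ⟨z, hzM⟩
    v := fun i => ⟨i.1, (hB1 _ i.2).1⟩
    κ := κ
    κ_pos := hκ
    central := fun x => Subtype.ext (hzc x.1 x.2)
    proj := Subtype.ext hzp.isIdempotentElem.eq
    v_z := fun i => Subtype.ext (hvz i)
    proj_sum := fun J => ?_
    hasSum := fun ξ => ?_
    lower := fun i ξ => ?_
    ne_zero := fun h0 => ?_ }⟩
  · have := isStarProjection_sum J (fun i : B => star i.1 * i.1) (fun i _ => hsp i)
      fun i _ j _ hij => hd.orth i j hij
    refine ⟨Subtype.ext ?_, Subtype.ext ?_⟩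
    · simpa using this.isIdempotentElem.eq
    · simp
  · have h1 := (hd.summable ξ).hasSum.map (innerSL ℂ ξ) (innerSL ℂ ξ).continuous
    have h2 := h1.map Complex.reCLM Complex.reCLM.continuous
    have e1 : (fun i : B => ‖ev ξ (⟨i.1, (hB1 _ i.2).1⟩ : Alg M)‖ ^ 2) =
        (⇑Complex.reCLM ∘ (⇑(innerSL ℂ ξ) ∘ fun i : B => (star i.1 * i.1) ξ)) := by
      funext i
      show ‖i.1 ξ‖ ^ 2 = (⟪ξ, (star i.1 * i.1) ξ⟫_ℂ).re
      rw [mul_apply_eq_comp, ContinuousLinearMap.star_eq_adjoint,
        ContinuousLinearMap.adjoint_inner_right, inner_self_eq_norm_sq_to_K]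
      simp [← Complex.ofReal_pow]
    have e2 : ‖ev ξ (⟨z, hzM⟩ : Alg M)‖ ^ 2 =
        Complex.reCLM (innerSL ℂ ξ (∑' i : B, (star i.1 * i.1) ξ)) := by
      show ‖z ξ‖ ^ 2 = (⟪ξ, hd.sum ξ⟫_ℂ).re
      rw [← hz]
      conv_rhs => rw [← hzp.isIdempotentElem.eq, mul_apply_eq_comp]
      nth_rw 2 [← hzp.isSelfAdjoint.star_eq]
      rw [ContinuousLinearMap.star_eq_adjoint, ContinuousLinearMap.adjoint_inner_right,
        inner_self_eq_norm_sq_to_K]
      simp [← Complex.ofReal_pow]
    rw [e1, e2]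
    exact h2
  · show κ * ‖i.1 ξ‖ ≤ ‖(D : H →L[ℂ] H) (i.1 ξ)‖
    rw [← hev ξ i]
    exact hlow _
  · refine he0 (ContinuousLinearMap.ext fun v => ?_)
    have h1 : (D : H →L[ℂ] H) (e v) = 0 := by
      have h2 := congrArg (fun x : Alg M => (x : H →L[ℂ] H) (e v)) h0
      rw [← congrArg (fun T : H →L[ℂ] H => T v) hze, mul_apply_eq_comp, ← mul_apply_eq_comp,
        ← hzc _ D.2]
      exact h2
    have := hlow v
    rw [h1, norm_zero] at this
    exact norm_le_zero_iff.1 (nonpos_of_mul_nonpos_right this hκ)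

end Vale.Agent.P082.Every.A
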