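import Vale.Agent.P082.Every.A.Orbit

/-!
# The defect of a map at nearly norming data
-/

namespace Vale.Agent.P082.Every.A

open scoped InnerProductSpace

universe u

variable {H : Type u} [NormedAddCommGroup H] [InnerProductSpace ℂ H] [CompleteSpace H]
variable {M : VonNeumannAlgebra H}

section Block

variable {κ lam ι : Type} [DecidableEq lam] [DecidableEq ι]

/-- The test matrix. -/
noncomputable def block (s : ℂ) (Z : κ → lam → Alg M) (m : ι → Alg M) (x : Alg M) :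
    κ ⊕ (lam × ι) → (lam × ι) ⊕ lam → Alg M
  | .inl k, .inl p => s • (Z k p.1 * star (m p.2))
  | .inl k, .inr l => s • Z k l
  | .inr q, .inl p => if q = p then s • x else 0
  | .inr q, .inr l => if q.1 = l then -(s • (x * m q.2)) else 0

variable [Fintype κ] [Fintype lam] [Fintype ι]

theorem contr_block {s : ℝ} (hs : 2 * s ^ 2 ≤ 1) {Z : κ → lam → Alg M} (hZ : Contr M Z)
    {m : ι → Alg M} (hm : ∑ j, star (m j) * m j = 1) {x : Alg M} (hx : ‖x‖ ≤ 1) :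
    Contr M (block (s : ℂ) Z m x) := by
  intro v
  set F := Fam.ofFintype m hm with hF
  have hsum : ∀ ζ : H, ∑ j, ‖ev ζ (m j)‖ ^ 2 = ‖ζ‖ ^ 2 := fun ζ =>
    ((Fintype.equivFin ι).symm.sum_comp fun j => ‖ev ζ (m j)‖ ^ 2).symm.trans (F.sum_norm_sq ζ)
  have hadj : ∀ u : ι → H, ‖∑ j, ev (u j) (star (m j))‖ ^ 2 ≤ ∑ j, ‖u j‖ ^ 2 := fun u => by
    set e := (Fintype.equivFin ι).symm
    have h : ‖∑ i, ev (u (e i)) (star (m (e i)))‖ ^ 2 ≤ ∑ i, ‖u (e i)‖ ^ 2 :=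
      F.norm_sq_adj_le fun i => u (e i)
    rwa [e.sum_comp fun j => ev (u j) (star (m j)), e.sum_comp fun j => ‖u j‖ ^ 2] at h
  set u : lam → ι → H := fun l j => v (.inl (l, j))
  set w : lam → H := fun l => v (.inr l)
  set p : lam → H := fun l => ∑ j, ev (u l j) (star (m j))
  have e1 : ∀ k, ∑ c, ev (v c) (block (s : ℂ) Z m x (.inl k) c) =
      (s : ℂ) • ∑ l, ev (p l + w l) (Z k l) := fun k => by
    simp only [Fintype.sum_sum_type, block, ev_smul, Fintype.sum_prod_type, Finset.smul_sum,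
      ev_mul, ev_vec_add, ev_vec_sum, p, u, w, smul_add, Finset.sum_add_distrib]
  have e2 : ∀ l j, ∑ c, ev (v c) (block (s : ℂ) Z m x (.inr (l, j)) c) =
      (s : ℂ) • ev (u l j - ev (w l) (m j)) x := fun l j => by
    rw [Fintype.sum_sum_type]
    simp only [block]
    rw [Fintype.sum_eq_single (l, j) (fun c hc => by rw [if_neg (Ne.symm hc)]; simp [ev]),
      Fintype.sum_eq_single l (fun c hc => by rw [if_neg (Ne.symm hc)]; simp [ev]), if_pos rfl,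
      if_pos rfl]
    simp [ev, u, w, sub_eq_add_neg]
  rw [Fintype.sum_sum_type, Fintype.sum_prod_type]
  simp only [e1, e2, norm_smul, mul_pow, Complex.norm_real, Real.norm_eq_abs, sq_abs,
    ← Finset.mul_sum]
  rw [← mul_add, Fintype.sum_sum_type, Fintype.sum_prod_type]
  have h1 : ∀ l, ‖p l + w l‖ ^ 2 + ∑ j, ‖u l j - ev (w l) (m j)‖ ^ 2 ≤
      2 * (∑ j, ‖u l j‖ ^ 2 + ‖w l‖ ^ 2) := by
    intro l
    have hc : ∑ j, (⟪u l j, ev (w l) (m j)⟫_ℂ).re = (⟪p l, w l⟫_ℂ).re := by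
      simp only [p, sum_inner, Complex.re_sum]
      refine Finset.sum_congr rfl fun j _ => ?_
      rw [← inner_conj_symm (ev (u l j) (star (m j))), inner_ev_star, inner_conj_symm]
    have h2 : ‖p l + w l‖ ^ 2 = ‖p l‖ ^ 2 + 2 * (⟪p l, w l⟫_ℂ).re + ‖w l‖ ^ 2 :=
      @norm_add_sq ℂ _ _ _ _ (p l) (w l)
    have h3 : ∑ j, ‖u l j - ev (w l) (m j)‖ ^ 2 =
        ∑ j, ‖u l j‖ ^ 2 - 2 * ∑ j, (⟪u l j, ev (w l) (m j)⟫_ℂ).re + ‖w l‖ ^ 2 := by
      rw [← hsum (w l), Finset.mul_sum, ← Finset.sum_sub_distrib, ← Finset.sum_add_distrib]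
      exact Finset.sum_congr rfl fun j _ => @norm_sub_sq ℂ _ _ _ _ (u l j) _
    have h4 : ‖p l‖ ^ 2 ≤ ∑ j, ‖u l j‖ ^ 2 := hadj (u l)
    rw [h2, h3, hc]
    linarith
  calc s ^ 2 * ((∑ k, ‖∑ l, ev (p l + w l) (Z k l)‖ ^ 2) +
        ∑ l, ∑ j, ‖ev (u l j - ev (w l) (m j)) x‖ ^ 2)
      ≤ s ^ 2 * ∑ l, (‖p l + w l‖ ^ 2 + ∑ j, ‖u l j - ev (w l) (m j)‖ ^ 2) := by
        refine mul_le_mul_of_nonneg_left ?_ (sq_nonneg s)
        rw [Finset.sum_add_distrib]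
        refine add_le_add (hZ _) (Finset.sum_le_sum fun l _ => Finset.sum_le_sum fun j _ => ?_)
        exact pow_le_pow_left₀ (norm_nonneg _)
          ((norm_ev_le _ _).trans (mul_le_of_le_one_left (norm_nonneg _) hx)) 2
    _ ≤ s ^ 2 * ∑ l, 2 * (∑ j, ‖u l j‖ ^ 2 + ‖w l‖ ^ 2) :=
        mul_le_mul_of_nonneg_left (Finset.sum_le_sum fun l _ => h1 l) (sq_nonneg s)
    _ = 2 * s ^ 2 * ((∑ l, ∑ j, ‖u l j‖ ^ 2) + ∑ l, ‖w l‖ ^ 2) := by
        rw [← Finset.mul_sum, Finset.sum_add_distrib]; ring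
    _ ≤ (∑ l, ∑ j, ‖u l j‖ ^ 2) + ∑ l, ‖w l‖ ^ 2 := mul_le_of_le_one_left
        (add_nonneg (Finset.sum_nonneg fun l _ => Finset.sum_nonneg fun j _ => sq_nonneg _)
          (Finset.sum_nonneg fun l _ => sq_nonneg _)) hs

/-- If `φ` and its average are both nearly norming at some data, `φ` is nearly modular there. -/
theorem defect_bound {φ : Alg M →L[ℂ] Alg M} {c : ℝ} (hφ : IsCB M φ c) (hc : 0 < c)
    {Z : κ → lam → Alg M} (hZ : Contr M Z) {η : κ → H} {ξ : lam → H} (hη : ∑ k, ‖η k‖ ^ 2 ≤ 1)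
    (hξ : ∑ l, ‖ξ l‖ ^ 2 ≤ 1) {m : ι → Alg M} (hm : ∑ j, star (m j) * m j = 1) {a : ℝ}
    (h0 : c - a ≤ (pair φ Z η ξ).re)
    (h1 : c - a ≤ (pair (TF (Fam.ofFintype m hm) φ) Z η ξ).re) {x : Alg M} (hx : ‖x‖ ≤ 1) :
    ∑ l, ∑ j, ‖ev (ξ l) (φ x * m j - φ (x * m j))‖ ^ 2 ≤ 8 * c * a := by
  set d : lam → ι → H := fun l j => ev (ξ l) (φ x * m j - φ (x * m j))
  set S := ∑ l, ∑ j, ‖d l j‖ ^ 2 with hS
  have hS0 : 0 ≤ S := Finset.sum_nonneg fun l _ => Finset.sum_nonneg fun j _ => sq_nonneg _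
  set s := (√2)⁻¹ with hs
  have hs2 : 2 * s ^ 2 = 1 := by rw [hs, inv_pow, Real.sq_sqrt (by norm_num)]; norm_num
  have hsC : (s : ℂ) * (s : ℂ) = ((1 / 2 : ℝ) : ℂ) := by
    rw [← Complex.ofReal_mul]; exact congrArg _ (by nlinarith)
  set τ := (2 * c)⁻¹ with hτ
  have hτ0 : 0 < τ := by positivity
  set η' : κ ⊕ (lam × ι) → H := Sum.elim η fun q => (τ : ℂ) • d q.1 q.2
  set ξ' : (lam × ι) ⊕ lam → H :=
    Sum.elim (fun p => (s : ℂ) • ev (ξ p.1) (m p.2)) fun l => (s : ℂ) • ξ l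
  have hn1 : ∑ q, ‖η' q‖ ^ 2 ≤ 1 + τ ^ 2 * S := by
    simp only [η', Fintype.sum_sum_type, Sum.elim_inl, Sum.elim_inr, Fintype.sum_prod_type,
      norm_smul, mul_pow, Complex.norm_real, Real.norm_eq_abs, sq_abs, ← Finset.mul_sum, hS]
    linarith
  have hn2 : ∑ q, ‖ξ' q‖ ^ 2 ≤ 1 := by
    simp only [ξ', Fintype.sum_sum_type, Sum.elim_inl, Sum.elim_inr, Fintype.sum_prod_type,
      norm_smul, mul_pow, Complex.norm_real, Real.norm_eq_abs, sq_abs, ← Finset.mul_sum]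
    have : ∀ l, ∑ j, ‖ev (ξ l) (m j)‖ ^ 2 = ‖ξ l‖ ^ 2 := fun l =>
      ((Fintype.equivFin ι).symm.sum_comp fun j => ‖ev (ξ l) (m j)‖ ^ 2).symm.trans
        ((Fam.ofFintype m hm).sum_norm_sq _)
    simp only [this]
    nlinarith
  have hval : pair φ (block (s : ℂ) Z m x) η' ξ' =
      ((1 / 2 : ℝ) : ℂ) * (pair (TF (Fam.ofFintype m hm) φ) Z η ξ + pair φ Z η ξ) +
        ((1 / 2 * τ * S : ℝ) : ℂ) := by
    have eu : ∀ k, ∑ q, ⟪η' (.inl k), ev (ξ' q) (φ (block (s : ℂ) Z m x (.inl k) q))⟫_ℂ =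
        ((1 / 2 : ℝ) : ℂ) * ((∑ l, ⟪η k, ev (ξ l) (TF (Fam.ofFintype m hm) φ (Z k l))⟫_ℂ) +
          ∑ l, ⟪η k, ev (ξ l) (φ (Z k l))⟫_ℂ) := fun k => by
      simp only [Fintype.sum_sum_type, η', ξ', Sum.elim_inl, Sum.elim_inr, block, map_smul,
        ev_smul, ev_vec_smul, inner_smul_right, ← mul_assoc, hsC, Fintype.sum_prod_type,
        TF_ofFintype, ev_sum, inner_sum, ev_mul, mul_add, Finset.mul_sum]
    have el : ∀ l j, ∑ q, ⟪η' (.inr (l, j)), ev (ξ' q) (φ (block (s : ℂ) Z m x (.inr (l, j)) q))⟫_ℂ =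
        ((1 / 2 * τ : ℝ) : ℂ) * ((‖d l j‖ ^ 2 : ℝ) : ℂ) := fun l j => by
      rw [Fintype.sum_sum_type]
      simp only [η', ξ', Sum.elim_inl, Sum.elim_inr, block]
      rw [Fintype.sum_eq_single (l, j) (fun q hq => by rw [if_neg (Ne.symm hq)]; simp [ev]),
        Fintype.sum_eq_single l (fun q hq => by rw [if_neg (Ne.symm hq)]; simp [ev]), if_pos rfl,
        if_pos rfl]
      simp only [map_neg, map_smul]
      rw [← neg_smul, ev_smul, ev_smul, ev_vec_smul, ev_vec_smul, inner_smul_left, inner_smul_right,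
        inner_smul_right, inner_smul_left, inner_smul_right, inner_smul_right, Complex.conj_ofReal,
        ← ev_mul, show ((τ : ℂ) * ((s : ℂ) * ((s : ℂ) * ⟪d l j, ev (ξ l) (φ x * m j)⟫_ℂ))) +
          (τ : ℂ) * (-(s : ℂ) * ((s : ℂ) * ⟪d l j, ev (ξ l) (φ (x * m j))⟫_ℂ)) =
          (τ : ℂ) * ((s : ℂ) * (s : ℂ)) * (⟪d l j, ev (ξ l) (φ x * m j)⟫_ℂ -
            ⟪d l j, ev (ξ l) (φ (x * m j))⟫_ℂ) by ring, hsC, ← inner_sub_right, ← ev_sub,
        inner_self_eq_norm_sq_to_K]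
      push_cast
      simp only [Complex.coe_algebraMap]
      ring
    simp only [pair, Fintype.sum_sum_type (α₁ := κ), Fintype.sum_prod_type]
    simp only [eu, el, ← Finset.mul_sum, ← Complex.ofReal_sum, Finset.sum_add_distrib]
    rw [← Complex.ofReal_mul]
  have hle := hφ.pair_le (contr_block (x := x) hs2.le hZ hm hx) η' ξ'
  have hre := (Complex.re_le_norm _).trans hle
  rw [hval, Complex.add_re, Complex.re_ofReal_mul, Complex.add_re, Complex.ofReal_re] at hre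
  have hq : c * √(∑ q, ‖η' q‖ ^ 2) * √(∑ q, ‖ξ' q‖ ^ 2) ≤ c * (1 + τ ^ 2 * S / 2) := by
    refine (mul_le_of_le_one_right (by positivity) (Real.sqrt_le_one.2 hn2)).trans
      (mul_le_mul_of_nonneg_left ?_ hc.le)
    refine (Real.sqrt_le_sqrt hn1).trans ?_
    rw [Real.sqrt_le_iff]
    exact ⟨by positivity, by nlinarith [sq_nonneg (τ ^ 2 * S)]⟩
  have hcτ : c * τ = 1 / 2 := by rw [hτ]; field_simp
  have hexp : c * (1 + τ ^ 2 * S / 2) = c + τ * S / 4 := by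
    linear_combination (τ * S / 2) * hcτ
  have h4 : τ * S ≤ 4 * a := by linarith
  have h5 : S = 2 * (c * τ) * S := by rw [hcτ]; ring
  calc S = 2 * c * (τ * S) := by linarith [h5, mul_assoc (2 * c) τ S, mul_assoc 2 c τ]
    _ ≤ 2 * c * (4 * a) := mul_le_mul_of_nonneg_left h4 (by positivity)
    _ = 8 * c * a := by ring

end Block

end Vale.Agent.P082.Every.A
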