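import Vale.Agent.P082.Every.A.Defect
import Vale.Agent.P082.Every.A.Cover

/-!
# The projection of completely bounded maps onto left multiplications
-/

namespace Vale.Agent.P082.Every.A

open scoped InnerProductSpace
open Filter Topology

universe u

variable {H : Type u} [NormedAddCommGroup H] [InnerProductSpace ℂ H] [CompleteSpace H]
variable {M : VonNeumannAlgebra H}

/-- The members of the family of a finite part of a cover, times a unitary. -/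
noncomputable def partFam {D : Alg M} (cv : Cover D) (b : Alg M) (J : Finset cv.ι) :
    Fin J.card ⊕ Unit → Alg M :=
  Sum.elim (fun i => b * cv.v (J.equivFin.symm i)) fun _ => 1 - ∑ i ∈ J, star (cv.v i) * cv.v i

theorem sum_partFam {D : Alg M} (cv : Cover D) {b : Alg M} (hb : star b * b = 1)
    (J : Finset cv.ι) : ∑ j, star (partFam cv b J j) * partFam cv b J j = 1 := by
  have h1 : ∀ i, star (b * cv.v i) * (b * cv.v i) = star (cv.v i) * cv.v i := fun i => by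
    rw [star_mul, mul_assoc, ← mul_assoc (star b), hb, one_mul]
  rw [Fintype.sum_sum_type]
  simp only [partFam, Sum.elim_inl, Sum.elim_inr, h1, Finset.univ_unique, Finset.sum_singleton]
  rw [J.equivFin.symm.sum_comp fun i : J => star (cv.v i.1) * cv.v i.1,
    Finset.sum_coe_sort J fun i => star (cv.v i) * cv.v i]
  have hp := (cv.proj_sum J).one_sub
  rw [hp.isSelfAdjoint.star_eq, hp.isIdempotentElem.eq, add_sub_cancel]

/-- The average of a part. -/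
noncomputable def partTF {D : Alg M} (cv : Cover D) {b : Alg M} (hb : star b * b = 1)
    (J : Finset cv.ι) : Op M :=
  TF (Fam.ofFintype (partFam cv b J) (sum_partFam cv hb J))

/-- A limit of the averages of the parts. -/
theorem exists_cluster {D : Alg M} (cv : Cover D) {b : Alg M} (hb : star b * b = 1) :
    ∃ T : Op M, InK T ∧ MapClusterPt (pt T) atTop fun J : Finset cv.ι => pt (partTF cv hb J) := by
  classical
  obtain ⟨p, hp, hp'⟩ := (isCompact_K M).exists_mapClusterPt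
    (u := fun J : Finset cv.ι => pt (partTF cv hb J)) (f := atTop)
    (le_principal_iff.2 (mem_map.2 (Eventually.of_forall fun J => inK_TF _)))
  obtain ⟨T, rfl⟩ := exists_op hp
  exact ⟨T, hp, hp'⟩

/-- At nearly norming data a finite part of the family is nearly modular. -/
theorem part_bound {D : Alg M} (cv : Cover D) {b : Alg M} (hb : star b * b = 1) {T : Op M}
    (hT : MapClusterPt (pt T) atTop fun J : Finset cv.ι => pt (partTF cv hb J))
    {ψ : Alg M →L[ℂ] Alg M} {c : ℝ} (hψ : IsCB M ψ c) (hc : 0 < c) {K L : ℕ}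
    {Z : Fin K → Fin L → Alg M} (hZ : Contr M Z) {η : Fin K → H} {ξ : Fin L → H}
    (hη : ∑ k, ‖η k‖ ^ 2 ≤ 1) (hξ : ∑ l, ‖ξ l‖ ^ 2 ≤ 1) {ε : ℝ} (hε : 0 < ε)
    (h0 : c - 3 * ε ≤ (pair ψ Z η ξ).re) (h1 : c - 3 * ε ≤ (pair (T ψ) Z η ξ).re)
    (J₀ : Finset cv.ι) {x : Alg M} (hx : ‖x‖ ≤ 1) :
    ∑ l, ∑ i ∈ J₀, ‖ev (ξ l) (ψ x * (b * cv.v i) - ψ (x * (b * cv.v i)))‖ ^ 2 ≤
      32 * c * ε := by
  classical
  set φ' : CbMap M := ⟨ψ, c, hψ⟩ with hφ'
  set f : (Idx M → ℂ) → ℂ := fun q => ∑ k, ∑ l, q (φ', Z k l, η k, ξ l) with hf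
  have hcont : Continuous f := continuous_finsetSum _ fun k _ =>
    continuous_finsetSum _ fun l _ => continuous_apply _
  have hU : {q | ‖f q - f (pt T)‖ < ε} ∈ 𝓝 (pt T) :=
    (isOpen_lt (continuous_norm.comp (hcont.sub continuous_const)) continuous_const).mem_nhds
      (show ‖f (pt T) - f (pt T)‖ < ε by rw [sub_self, norm_zero]; exact hε)
  obtain ⟨J, hJ, hJ0⟩ :=
    ((mapClusterPt_iff_frequently.1 hT _ hU).and_eventually (eventually_ge_atTop J₀)).exists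
  have hJ' : ‖f (pt (partTF cv hb J)) - f (pt T)‖ < ε := hJ
  set F := Fam.ofFintype (partFam cv b J) (sum_partFam cv hb J) with hF
  have h2 : c - 4 * ε ≤ (pair (TF F ψ) Z η ξ).re := by
    have h3 : ‖pair (TF F ψ) Z η ξ - pair (T ψ) Z η ξ‖ < ε := hJ'
    have h4 := Complex.abs_re_le_norm (pair (TF F ψ) Z η ξ - pair (T ψ) Z η ξ)
    rw [Complex.sub_re] at h4
    linarith [abs_le.1 h4]
  have h5 := defect_bound hψ hc hZ hη hξ (sum_partFam cv hb J) (a := 4 * ε)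
    (by linarith) h2 hx
  refine le_trans (Finset.sum_le_sum fun l _ => ?_) (h5.trans_eq (by ring))
  rw [Fintype.sum_sum_type]
  refine le_trans ?_ (le_add_of_nonneg_right (Finset.sum_nonneg fun j _ => sq_nonneg _))
  simp only [partFam, Sum.elim_inl]
  rw [J.equivFin.symm.sum_comp fun i : J =>
      ‖ev (ξ l) (ψ x * (b * cv.v i.1) - ψ (x * (b * cv.v i.1)))‖ ^ 2,
    Finset.sum_coe_sort J fun i =>
      ‖ev (ξ l) (ψ x * (b * cv.v i) - ψ (x * (b * cv.v i)))‖ ^ 2]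
  exact Finset.sum_le_sum_of_subset_of_nonneg hJ0 fun i _ _ => sq_nonneg _

theorem cb_inf {ψ : Alg M →L[ℂ] Alg M} {C : ℝ} (h : IsCB M ψ C) :
    ∃ c, IsCB M ψ c ∧ ∀ a, IsCB M ψ a → c ≤ a :=
  ⟨sInf {a | IsCB M ψ a},
    fun K L Z hZ η ξ hη hξ => le_csInf ⟨C, h⟩ fun _ ha => ha K L Z hZ η ξ hη hξ,
    fun _ ha => csInf_le ⟨0, fun _ hb => hb.nonneg⟩ ha⟩

theorem norm_le_one_of_isometry {b : Alg M} (hb : star b * b = 1) : ‖b‖ ≤ 1 := by
  refine ((b : H →L[ℂ] H).opNorm_le_bound zero_le_one fun ξ => ?_ :)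
  rw [one_mul]
  refine le_of_pow_le_pow_left₀ two_ne_zero (norm_nonneg _) (le_of_eq ?_)
  have h := (Fam.ofFintype (fun _ : Unit => b) (by simp [hb])).sum_norm_sq ξ
  exact ((Fintype.equivFin Unit).symm.sum_comp fun _ => ‖ev ξ b‖ ^ 2).symm.trans h |> fun h => by
    simpa [ev] using h

/-- Data at which three averages are nearly norming. -/
theorem exists_data {ψ χ₁ χ₂ : Alg M →L[ℂ] Alg M} {c ε : ℝ} (h₀ : IsCB M ψ c) (h₁ : IsCB M χ₁ c)
    (h₂ : IsCB M χ₂ c) (hεc : ε < c)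
    (hnot : ¬ IsCB M (((1 / 3 : ℝ) : ℂ) • ψ + ((2 / 3 : ℝ) : ℂ) •
      (((1 / 2 : ℝ) : ℂ) • χ₁ + ((1 / 2 : ℝ) : ℂ) • χ₂)) (c - ε)) :
    ∃ (K L : ℕ) (Z : Fin K → Fin L → Alg M) (η : Fin K → H) (ξ : Fin L → H), Contr M Z ∧
      ∑ k, ‖η k‖ ^ 2 ≤ 1 ∧ ∑ l, ‖ξ l‖ ^ 2 ≤ 1 ∧ c - 3 * ε ≤ (pair ψ Z η ξ).re ∧
      c - 3 * ε ≤ (pair χ₁ Z η ξ).re ∧ c - 3 * ε ≤ (pair χ₂ Z η ξ).re := by
  set χ := ((1 / 3 : ℝ) : ℂ) • ψ + ((2 / 3 : ℝ) : ℂ) •
    (((1 / 2 : ℝ) : ℂ) • χ₁ + ((1 / 2 : ℝ) : ℂ) • χ₂) with hχ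
  simp only [IsCB, not_forall, not_le] at hnot
  obtain ⟨K, L, Z, hZ, η, ξ, hη, hξ, hbig⟩ := hnot
  replace hbig : c - ε < ‖pair χ Z η ξ‖ := hbig
  set P := pair χ Z η ξ with hP
  have hP0 : 0 < ‖P‖ := by linarith
  set w : ℂ := P / (‖P‖ : ℂ)
  have hw : ‖w‖ = 1 := by simp [w, hP0.ne']
  set η' : Fin K → H := fun k => w • η k with hη'def
  have hη' : ∑ k, ‖η' k‖ ^ 2 ≤ 1 := by simpa [η', norm_smul, hw] using hη
  have hre : c - ε < (pair χ Z η' ξ).re := by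
    rw [hη'def, pair_smul_left, ← hP]
    have : starRingEnd ℂ w * P = (‖P‖ : ℂ) := by
      simp only [w, map_div₀, Complex.conj_ofReal]
      rw [div_mul_eq_mul_div, Complex.conj_mul', sq, mul_div_assoc,
        div_self (by exact_mod_cast hP0.ne'), mul_one]
    rw [this, Complex.ofReal_re]
    exact hbig
  have hsplit : pair χ Z η' ξ = ((1 / 3 : ℝ) : ℂ) * pair ψ Z η' ξ +
      ((2 / 3 : ℝ) : ℂ) * (((1 / 2 : ℝ) : ℂ) * pair χ₁ Z η' ξ +
        ((1 / 2 : ℝ) : ℂ) * pair χ₂ Z η' ξ) := by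
    simp only [pair, hχ, add_apply, smul_apply, ev_add, ev_smul, inner_add_right,
      inner_smul_right, Finset.sum_add_distrib, ← Finset.mul_sum]
  rw [hsplit] at hre
  simp only [Complex.add_re, Complex.re_ofReal_mul] at hre
  have hle : ∀ {θ : Alg M →L[ℂ] Alg M}, IsCB M θ c → (pair θ Z η' ξ).re ≤ c := fun h =>
    (Complex.re_le_norm _).trans (h K L Z hZ η' ξ hη' hξ)
  have b0 := hle h₀
  have b1 := hle h₁
  have b2 := hle h₂
  exact ⟨K, L, Z, η', ξ, hZ, hη', hξ, by linarith, by linarith, by linarith⟩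

/-- The mass of the central projection at nearly norming data. -/
theorem mass_ge {ψ : Alg M →L[ℂ] Alg M} {c ε : ℝ} {z : Alg M} (hψ : IsCB M ψ c) (hc : 0 < c)
    (hε : ε ≤ c / 16) (hψz : ∀ y, ψ y * z = ψ y) {K L : ℕ} {Z : Fin K → Fin L → Alg M}
    (hZ : Contr M Z) {η : Fin K → H} {ξ : Fin L → H} (hη : ∑ k, ‖η k‖ ^ 2 ≤ 1)
    (g0 : c - 3 * ε ≤ (pair ψ Z η ξ).re) : 9 / 16 ≤ ∑ l, ‖ev (ξ l) z‖ ^ 2 := by
  set ζ : Fin L → H := fun l => ev (ξ l) z with hζ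
  have hpz : pair ψ Z η ξ = pair ψ Z η ζ := by
    simp only [pair, hζ, ← ev_mul, hψz]
  have h3 := hψ.pair_le hZ η ζ
  rw [← hpz] at h3
  have h4 : c - 3 * ε ≤ c * √(∑ l, ‖ζ l‖ ^ 2) :=
    (g0.trans (Complex.re_le_norm _)).trans (h3.trans (mul_le_mul_of_nonneg_right
      (mul_le_of_le_one_right hc.le (Real.sqrt_le_one.2 hη)) (Real.sqrt_nonneg _)))
  have h5 : 3 / 4 ≤ √(∑ l, ‖ζ l‖ ^ 2) := by
    refine le_of_mul_le_mul_left ?_ hc
    linarith
  have h6 := pow_le_pow_left₀ (by norm_num) h5 2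
  rw [Real.sq_sqrt (Finset.sum_nonneg fun l _ => sq_nonneg _)] at h6
  norm_num at h6 ⊢
  exact h6

/-- Two nearly modular multipliers make the defect small. -/
theorem defect_le {D : Alg M} (cv : Cover D) {ψ : Alg M →L[ℂ] Alg M} {x b : Alg M}
    (hdiff : ψ (x * b) - ψ x * b = cv.z * D) {L : ℕ} (ξ : Fin L → H) (J : Finset cv.ι) {E : ℝ}
    (k1 : ∑ l, ∑ i ∈ J, ‖ev (ξ l) (ψ (x * b) * cv.v i - ψ (x * b * cv.v i))‖ ^ 2 ≤ E)
    (k2 : ∑ l, ∑ i ∈ J, ‖ev (ξ l) (ψ x * (b * cv.v i) - ψ (x * (b * cv.v i)))‖ ^ 2 ≤ E) :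
    ∑ l, ∑ i ∈ J, ‖ev (ξ l) (D * cv.v i)‖ ^ 2 ≤ 2 * E + 2 * E := by
  refine le_trans ?_ (add_le_add (mul_le_mul_of_nonneg_left k1 zero_le_two)
    (mul_le_mul_of_nonneg_left k2 zero_le_two))
  simp only [Finset.mul_sum, ← Finset.sum_add_distrib]
  refine Finset.sum_le_sum fun l _ => Finset.sum_le_sum fun i _ => ?_
  have e : D * cv.v i = (ψ (x * b) * cv.v i - ψ (x * b * cv.v i)) -
      (ψ x * (b * cv.v i) - ψ (x * (b * cv.v i))) := by
    have : D * cv.v i = cv.z * D * cv.v i := by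
      conv_lhs => rw [← cv.v_z i, ← cv.central, ← mul_assoc, ← cv.central]
    rw [this, ← hdiff, sub_mul, mul_assoc x b, mul_assoc (ψ x) b]
    abel
  rw [e, ev_sub]
  set p := ev (ξ l) (ψ (x * b) * cv.v i - ψ (x * b * cv.v i))
  set q := ev (ξ l) (ψ x * (b * cv.v i) - ψ (x * (b * cv.v i)))
  nlinarith [norm_sub_le p q, norm_nonneg (p - q), sq_nonneg (‖p‖ - ‖q‖)]

/-- The minimal average is modular for unitaries. -/
theorem modular_unitary {R : Op M} (hR : InK R)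
    (hmin : ∀ T, InK T → ∀ φ C a, IsCB M φ C → IsCB M (T (R φ)) a → IsCB M (R φ) a)
    {φ : Alg M →L[ℂ] Alg M} {C : ℝ} (hφ : IsCB M φ C) {x b : Alg M} (hx : ‖x‖ ≤ 1)
    (hb : b ∈ unitary (Alg M)) : R φ (x * b) = R φ x * b := by
  by_contra hne
  obtain ⟨cv⟩ := exists_cover (D := R φ (x * b) - R φ x * b) (sub_ne_zero.2 hne)
  set D := R φ (x * b) - R φ x * b with hD
  set φz := (ContinuousLinearMap.mul ℂ (Alg M) cv.z).comp φ with hφz
  have hφzc := hφ.comp_left cv.z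
  set ψ := R φz with hψdef
  have hψv : ∀ y, ψ y = cv.z * R φ y := fun y => by
    rw [hψdef, hφz, hR.comp_left cv.z hφ]; rfl
  obtain ⟨c, hψ, hcinf⟩ := cb_inf (hR.isCB hφzc)
  have hψz : ∀ y, ψ y * cv.z = ψ y := fun y => by
    rw [hψv, mul_assoc, ← cv.central, ← mul_assoc, cv.proj]
  have hdiff : ψ (x * b) - ψ x * b = cv.z * D := by
    simp only [hψv, hD, mul_sub, mul_assoc]
  have hc : 0 < c := by
    refine lt_of_le_of_ne hψ.nonneg fun h0 => cv.ne_zero ?_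
    have h1 : ∀ y, ψ y = 0 := fun y => norm_le_zero_iff.1
      ((hψ.norm_apply_le y).trans_eq (by rw [← h0, zero_mul]))
    rw [← hdiff, h1, h1, zero_mul, sub_zero]
  obtain ⟨T₁, hT₁, hcl₁⟩ := exists_cluster cv (b := 1) (by simp)
  obtain ⟨T₂, hT₂, hcl₂⟩ := exists_cluster cv hb.1
  set T : Op M := fun φ => ((1 / 3 : ℝ) : ℂ) • id φ + ((2 / 3 : ℝ) : ℂ) •
    (((1 / 2 : ℝ) : ℂ) • T₁ φ + ((1 / 2 : ℝ) : ℂ) • T₂ φ) with hTdef
  have hT : InK T := inK_id.convex (hT₁.convex hT₂ (by norm_num) (by norm_num) (by norm_num))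
    (by norm_num) (by norm_num) (by norm_num)
  set ε := min (c / 16) (min (1 / 32) (cv.κ ^ 2 / (512 * c))) with hεdef
  have hκ := cv.κ_pos
  have hε : 0 < ε := lt_min (by positivity) (lt_min (by norm_num) (by positivity))
  have hε1 : ε ≤ c / 16 := min_le_left _ _
  have hε2 : ε ≤ 1 / 32 := (min_le_right _ _).trans (min_le_left _ _)
  have hε3 : ε * (512 * c) ≤ cv.κ ^ 2 := (le_div_iff₀ (by positivity)).1
    ((min_le_right _ _).trans (min_le_right _ _))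
  have hnot : ¬ IsCB M (T ψ) (c - ε) := fun h => by
    have := hcinf _ (hmin T hT φz _ _ hφzc h)
    linarith
  obtain ⟨K, L, Z, η, ξ, hZ, hη', hξ, g0, g1, g2⟩ :=
    exists_data hψ (hT₁.isCB hψ) (hT₂.isCB hψ) (by linarith) hnot
  have hz1 := mass_ge hψ hc hε1 hψz hZ hη' g0
  classical
  obtain ⟨J₀, hJ₀⟩ : ∃ J₀ : Finset cv.ι, ∀ J, J₀ ⊆ J →
      1 / 2 < ∑ l, ∑ i ∈ J, ‖ev (ξ l) (cv.v i)‖ ^ 2 := by
    have ht : Tendsto (fun J : Finset cv.ι => ∑ l, ∑ i ∈ J, ‖ev (ξ l) (cv.v i)‖ ^ 2) atTop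
        (𝓝 (∑ l, ‖ev (ξ l) cv.z‖ ^ 2)) := tendsto_finsetSum _ fun l _ => cv.hasSum (ξ l)
    have he := ht.eventually (eventually_gt_nhds (show (1 : ℝ) / 2 < _ by linarith))
    exact eventually_atTop.1 he
  have hxb : ‖x * b‖ ≤ 1 :=
    (norm_mul_le _ _).trans (mul_le_one₀ hx (norm_nonneg _) (norm_le_one_of_isometry hb.1))
  have k1 := part_bound cv (by simp) hcl₁ hψ hc hZ hη' hξ hε g0 g1 J₀ hxb
  have k2 := part_bound cv hb.1 hcl₂ hψ hc hZ hη' hξ hε g0 g2 J₀ hx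
  simp only [one_mul] at k1
  have hlow : cv.κ ^ 2 * (1 / 2) < ∑ l, ∑ i ∈ J₀, ‖ev (ξ l) (D * cv.v i)‖ ^ 2 := by
    refine (mul_lt_mul_of_pos_left (hJ₀ J₀ subset_rfl) (by positivity)).trans_le ?_
    simp only [Finset.mul_sum, ← mul_pow]
    exact Finset.sum_le_sum fun l _ => Finset.sum_le_sum fun i _ =>
      pow_le_pow_left₀ (mul_nonneg hκ.le (norm_nonneg _)) (cv.lower i (ξ l)) 2
  have hup := defect_le cv hdiff ξ J₀ k1 k2
  have hsq : 0 < cv.κ ^ 2 := pow_pos hκ 2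
  linarith

/-- The minimal average is a left multiplication. -/
theorem modular {R : Op M} (hR : InK R)
    (hmin : ∀ T, InK T → ∀ φ C a, IsCB M φ C → IsCB M (T (R φ)) a → IsCB M (R φ) a)
    {φ : Alg M →L[ℂ] Alg M} {C : ℝ} (hφ : IsCB M φ C) (v : Alg M) : R φ v = R φ 1 * v := by
  have h : v ∈ Submodule.span ℂ (unitary (Alg M) : Set (Alg M)) := by
    rw [CStarAlgebra.span_unitary]; trivial
  induction h using Submodule.span_induction with
  | mem b hb =>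
    have := modular_unitary hR hmin hφ (x := 1) (norm_le_one_of_isometry (by simp)) hb
    rwa [one_mul] at this
  | zero => simp
  | add a b _ _ ha hb => rw [map_add, ha, hb, mul_add]
  | smul c a _ ha => rw [map_smul, ha, mul_smul_comm]

/-- A function linear on a subspace extends to a linear map. -/
theorem exists_linear_ext {V W : Type*} [AddCommGroup V] [Module ℂ V] [AddCommGroup W] [Module ℂ W]
    (p : Submodule ℂ V) (f : V → W) (hadd : ∀ x ∈ p, ∀ y ∈ p, f (x + y) = f x + f y)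
    (hsmul : ∀ x ∈ p, ∀ c : ℂ, f (c • x) = c • f x) :
    ∃ Φ : V →ₗ[ℂ] W, ∀ x ∈ p, Φ x = f x := by
  obtain ⟨Φ, hΦ⟩ := LinearMap.exists_extend
    ({ toFun := fun x => f x.1
       map_add' := fun x y => hadd _ x.2 _ y.2
       map_smul' := fun c x => hsmul _ x.2 c } : p →ₗ[ℂ] W)
  exact ⟨Φ, fun x hx => LinearMap.congr_fun hΦ ⟨x, hx⟩⟩

/-- A. -/
theorem stmtA : StmtA.{u} := by
  intro H _ _ _ M
  obtain ⟨R, hR, hmin⟩ := exists_minimal M
  obtain ⟨Φ, hΦ⟩ := exists_linear_ext (Cb M) (fun φ => R φ 1)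
    (fun φ ⟨C, hC⟩ ψ ⟨D, hD⟩ => by
      rw [hR.map_add hC hD]; rfl)
    (fun φ ⟨C, hC⟩ c => by rw [hR.map_smul hC]; rfl)
  have hval : ∀ {φ : Alg M →L[ℂ] Alg M} {C : ℝ}, IsCB M φ C → Φ φ = R φ 1 := fun {φ C} h =>
    hΦ φ ⟨C, h⟩
  refine ⟨Φ, fun φ C h => ?_, fun c φ C h => ?_, fun v φ C h => ?_, fun c => ?_⟩
  · rw [hval h]
    exact ((hR.isCB h).norm_apply_le 1).trans
      (mul_le_of_le_one_right h.nonneg (norm_le_one_of_isometry (by simp)))
  · rw [hval (h.comp_left c), hval h, hR.comp_left c h]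
    rfl
  · rw [hval (h.comp_right v), hval h, hR.comp_right v h, ← modular hR hmin h v]
    show R φ (v * 1) = R φ v
    rw [mul_one]
  · obtain ⟨C, hC⟩ := mem_Cb.1 (mul_mem_Cb c)
    rw [hval hC, hR.fix c]
    simp

end Vale.Agent.P082.Every.A
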