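import Vale.Agent.P082.Every.A.Basic
import Vale.Agent.P082.Phi

/-!
# The compact semigroup of averages
-/

namespace Vale.Agent.P082.Every.A

open scoped InnerProductSpace
open Filter Topology

universe u

variable {H : Type u} [NormedAddCommGroup H] [InnerProductSpace ℂ H] [CompleteSpace H]
variable {M : VonNeumannAlgebra H}

/-- A map on maps; only its values on completely bounded maps matter. -/
abbrev Op (M : VonNeumannAlgebra H) := (Alg M →L[ℂ] Alg M) → (Alg M →L[ℂ] Alg M)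

/-- A completely bounded map. -/
abbrev CbMap (M : VonNeumannAlgebra H) := {φ : Alg M →L[ℂ] Alg M // ∃ C, IsCB M φ C}

/-- An index of a coordinate. -/
abbrev Idx (M : VonNeumannAlgebra H) := CbMap M × Alg M × H × H

/-- The coordinates of a map. -/
noncomputable def pt (T : Op M) : Idx M → ℂ :=
  fun i => ⟪i.2.2.1, ev i.2.2.2 (T i.1.1 i.2.1)⟫_ℂ

/-- The closure of the orbit. -/
def K (M : VonNeumannAlgebra H) : Set (Idx M → ℂ) := closure (Set.range fun F : Fam M => pt (TF F))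

/-- A linear map in the closed orbit. -/
def InK (T : Op M) : Prop := pt T ∈ K M

theorem inK_TF (F : Fam M) : InK (TF F) := subset_closure ⟨F, rfl⟩

theorem norm_pt_TF (F : Fam M) (φ : CbMap M) {C : ℝ} (hC : IsCB M φ.1 C) (x : Alg M) (η ξ : H) :
    ‖pt (TF F) (φ, x, η, ξ)‖ ≤ C * ‖x‖ * ‖η‖ * ‖ξ‖ := by
  refine (norm_inner_le_norm _ _).trans ?_
  refine (mul_le_mul_of_nonneg_left ((norm_ev_le _ _).trans (mul_le_mul_of_nonneg_right
    ((hC.sum_ev F).norm_apply_le x) (norm_nonneg _))) (norm_nonneg _)).trans_eq ?_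
  ring

theorem exists_bound (φ : CbMap M) : ∃ C, IsCB M φ.1 C := φ.2

theorem isCompact_K (M : VonNeumannAlgebra H) : IsCompact (K M) := by
  choose C hC using exists_bound (M := M)
  have hp : IsCompact (Set.univ.pi fun i : Idx M =>
      Metric.closedBall (0 : ℂ) (C i.1 * ‖i.2.1‖ * ‖i.2.2.1‖ * ‖i.2.2.2‖)) :=
    isCompact_univ_pi fun i => isCompact_closedBall _ _
  refine hp.of_isClosed_subset isClosed_closure (closure_minimal ?_ hp.isClosed)
  rintro - ⟨F, rfl⟩ i -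
  exact mem_closedBall_zero_iff.2 (norm_pt_TF F i.1 (hC i.1) _ _ _)

theorem exists_op {p : Idx M → ℂ} (hp : p ∈ K M) : ∃ T : Op M, pt T = p := by
  have hne : (Filter.comap (fun F : Fam M => pt (TF F)) (𝓝 p)).NeBot :=
    Filter.comap_neBot fun s hs => by
      obtain ⟨-, h, F, rfl⟩ := mem_closure_iff_nhds.1 hp s hs
      exact ⟨F, h⟩
  set U := Ultrafilter.of (Filter.comap (fun F : Fam M => pt (TF F)) (𝓝 p))
  have hU : ∀ i, Tendsto (fun F : Fam M => pt (TF F) i) U (𝓝 (p i)) := fun i =>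
    ((continuous_apply i).tendsto p).comp
      (Filter.tendsto_comap.mono_left (Ultrafilter.of_le _))
  choose C hC using exists_bound (M := M)
  have hw : ∀ (φ : CbMap M) (x : Alg M), ∃ y : Alg M, ‖y‖ ≤ C φ * ‖x‖ ∧
      ∀ η ξ, p (φ, x, η, ξ) = ⟪η, ev ξ y⟫_ℂ := by
    intro φ x
    obtain ⟨y, hy, hy'⟩ := Phi.exists_wlim U (fun F => TF F φ.1 x)
      (mul_nonneg (hC φ).nonneg (norm_nonneg x)) fun F => ((hC φ).sum_ev F).norm_apply_le x
    exact ⟨y, hy, fun η ξ => tendsto_nhds_unique (hU (φ, x, η, ξ)) (hy' η ξ)⟩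
  choose y hy hy' using hw
  have huniq : ∀ {a b : Alg M}, (∀ η ξ : H, ⟪η, ev ξ a⟫_ℂ = ⟪η, ev ξ b⟫_ℂ) → a = b :=
    fun h => Phi.alg_ext h
  have hlim : ∀ φ x η ξ, Tendsto (fun F : Fam M => pt (TF F) (φ, x, η, ξ)) U
      (𝓝 ⟪η, ev ξ (y φ x)⟫_ℂ) := fun φ x η ξ => hy' φ x η ξ ▸ hU _
  have hadd : ∀ φ a b, y φ (a + b) = y φ a + y φ b := fun φ a b => huniq fun η ξ => by
    refine tendsto_nhds_unique (hlim φ _ η ξ) ?_
    rw [ev_add, inner_add_right]
    refine ((hlim φ a η ξ).add (hlim φ b η ξ)).congr fun F => ?_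
    simp [pt, ev_add]
  have hsmul : ∀ φ (c : ℂ) a, y φ (c • a) = c • y φ a := fun φ c a => huniq fun η ξ => by
    refine tendsto_nhds_unique (hlim φ _ η ξ) ?_
    rw [ev_smul, inner_smul_right]
    refine ((hlim φ a η ξ).const_mul c).congr fun F => ?_
    simp [pt, ev_smul]
  let g : CbMap M → Alg M →L[ℂ] Alg M := fun φ =>
    LinearMap.mkContinuous { toFun := y φ, map_add' := hadd φ, map_smul' := hsmul φ } (C φ)
      (hy φ)
  classical
  refine ⟨fun φ => if h : ∃ C, IsCB M φ C then g ⟨φ, h⟩ else 0, funext fun i => ?_⟩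
  show ⟪i.2.2.1, ev i.2.2.2 ((dite _ _ _ : Alg M →L[ℂ] Alg M) i.2.1)⟫_ℂ = p i
  rw [dif_pos i.1.2]
  exact (hy' i.1 i.2.1 i.2.2.1 i.2.2.2).symm

namespace InK

variable {T T' : Op M}

theorem isCB (hT : InK T) {φ : Alg M →L[ℂ] Alg M} {C : ℝ} (h : IsCB M φ C) :
    IsCB M (T φ) C := by
  intro K L Z hZ η ξ hη hξ
  set φ' : CbMap M := ⟨φ, C, h⟩
  have hcl : IsClosed {p : Idx M → ℂ | ‖∑ k, ∑ l, p (φ', Z k l, η k, ξ l)‖ ≤ C} :=
    isClosed_le (continuous_norm.comp (continuous_finsetSum _ fun k _ =>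
      continuous_finsetSum _ fun l _ => continuous_apply _)) continuous_const
  have hsub : Set.range (fun F : Fam M => pt (TF F)) ⊆
      {p : Idx M → ℂ | ‖∑ k, ∑ l, p (φ', Z k l, η k, ξ l)‖ ≤ C} := by
    rintro - ⟨F, rfl⟩
    show ‖∑ k, ∑ l, ⟪η k, ev (ξ l) (TF F φ (Z k l))⟫_ℂ‖ ≤ C
    exact h.sum_ev F K L Z hZ η ξ hη hξ
  have hmem := closure_minimal hsub hcl hT
  show ‖∑ k, ∑ l, pt T (φ', Z k l, η k, ξ l)‖ ≤ C
  exact hmem

/-- An identity of coordinates passes to the closure. -/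
theorem apply_eq (hT : InK T) {i j : Idx M} (h : ∀ F : Fam M, pt (TF F) i = pt (TF F) j) :
    pt T i = pt T j := by
  refine closure_minimal (t := {p : Idx M → ℂ | p i = p j}) ?_
    (isClosed_eq (continuous_apply _) (continuous_apply _)) hT
  rintro - ⟨F, rfl⟩
  exact h F

theorem comp_left (hT : InK T) (c : Alg M) {φ : Alg M →L[ℂ] Alg M} {C : ℝ} (h : IsCB M φ C) :
    T ((ContinuousLinearMap.mul ℂ (Alg M) c).comp φ) =
      (ContinuousLinearMap.mul ℂ (Alg M) c).comp (T φ) := by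
  refine ContinuousLinearMap.ext fun x => Phi.alg_ext fun η ξ => ?_
  have := hT.apply_eq (i := (⟨_, _, h.comp_left c⟩, x, η, ξ))
    (j := (⟨φ, C, h⟩, x, ev η (star c), ξ)) fun F => by
    show ⟪η, ev ξ (TF F _ x)⟫_ℂ = ⟪ev η (star c), ev ξ (TF F φ x)⟫_ℂ
    rw [← inner_ev_star, star_star, ← ev_mul, TF_apply, TF_apply, Finset.mul_sum]
    simp only [ContinuousLinearMap.comp_apply, ContinuousLinearMap.mul_apply', mul_assoc]
  refine this.trans ?_
  show ⟪ev η (star c), ev ξ (T φ x)⟫_ℂ = ⟪η, ev ξ (c * T φ x)⟫_ℂ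
  rw [← inner_ev_star, star_star, ← ev_mul]

theorem comp_right (hT : InK T) (v : Alg M) {φ : Alg M →L[ℂ] Alg M} {C : ℝ} (h : IsCB M φ C) :
    T (φ.comp (ContinuousLinearMap.mul ℂ (Alg M) v)) =
      (T φ).comp (ContinuousLinearMap.mul ℂ (Alg M) v) := by
  refine ContinuousLinearMap.ext fun x => Phi.alg_ext fun η ξ => ?_
  exact hT.apply_eq (i := (⟨_, _, h.comp_right v⟩, x, η, ξ)) (j := (⟨φ, C, h⟩, v * x, η, ξ))
    fun F => by simp [pt, TF_apply, mul_assoc]

theorem map_add (hT : InK T) {φ ψ : Alg M →L[ℂ] Alg M} {C D : ℝ} (h : IsCB M φ C)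
    (h' : IsCB M ψ D) : T (φ + ψ) = T φ + T ψ := by
  refine ContinuousLinearMap.ext fun x => Phi.alg_ext fun η ξ => ?_
  have : pt T (⟨_, _, h.add h'⟩, x, η, ξ) =
      pt T (⟨φ, C, h⟩, x, η, ξ) + pt T (⟨ψ, D, h'⟩, x, η, ξ) := by
    refine closure_minimal (t := {p : Idx M → ℂ | p (⟨_, _, h.add h'⟩, x, η, ξ) =
      p (⟨φ, C, h⟩, x, η, ξ) + p (⟨ψ, D, h'⟩, x, η, ξ)}) ?_
      (isClosed_eq (continuous_apply _) ((continuous_apply _).add (continuous_apply _))) hT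
    rintro - ⟨F, rfl⟩
    simp [pt, TF_apply, ev_add, ev_sum, add_mul, Finset.sum_add_distrib]
  refine this.trans ?_
  show _ = ⟪η, ev ξ (T φ x + T ψ x)⟫_ℂ
  rw [ev_add, inner_add_right]
  rfl

theorem map_smul (hT : InK T) {φ : Alg M →L[ℂ] Alg M} {C : ℝ} (h : IsCB M φ C) (c : ℂ) :
    T (c • φ) = c • T φ := by
  refine ContinuousLinearMap.ext fun x => Phi.alg_ext fun η ξ => ?_
  have : pt T (⟨_, _, h.smul c⟩, x, η, ξ) = c * pt T (⟨φ, C, h⟩, x, η, ξ) := by
    refine closure_minimal (t := {p : Idx M → ℂ | p (⟨_, _, h.smul c⟩, x, η, ξ) =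
      c * p (⟨φ, C, h⟩, x, η, ξ)}) ?_
      (isClosed_eq (continuous_apply _) (continuous_const.mul (continuous_apply _))) hT
    rintro - ⟨F, rfl⟩
    simp [pt, TF_apply, ev_smul, ev_sum, Finset.mul_sum]
  refine this.trans ?_
  show _ = ⟪η, ev ξ (c • T φ x)⟫_ℂ
  rw [ev_smul, inner_smul_right]
  rfl

theorem fix (hT : InK T) (c : Alg M) :
    T (ContinuousLinearMap.mul ℂ (Alg M) c) = ContinuousLinearMap.mul ℂ (Alg M) c := by
  refine ContinuousLinearMap.ext fun x => Phi.alg_ext fun η ξ => ?_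
  refine closure_minimal (t := {p : Idx M → ℂ |
    p (⟨_, mul_mem_Cb c⟩, x, η, ξ) = ⟪η, ev ξ (c * x)⟫_ℂ}) ?_
    (isClosed_eq (continuous_apply _) continuous_const) hT
  rintro - ⟨F, rfl⟩
  show ⟪η, ev ξ (TF F _ x)⟫_ℂ = _
  simp only [TF_apply, ContinuousLinearMap.mul_apply', mul_assoc, ← Finset.mul_sum]
  rw [F.sum_eq, mul_one]

end InK

theorem TF_comp (F F' : Fam M) :
    ∃ F'' : Fam M, ∀ φ, TF F'' φ = TF F (TF F' φ) := by
  refine ⟨Fam.ofFintype (fun p : Fin F'.n × Fin F.n => F'.m p.1 * F.m p.2) ?_, fun φ => ?_⟩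
  · rw [Fintype.sum_prod_type, Finset.sum_comm]
    calc _ = ∑ j, star (F.m j) * (∑ i, star (F'.m i) * F'.m i) * F.m j := by
          refine Finset.sum_congr rfl fun j _ => ?_
          rw [Finset.mul_sum, Finset.sum_mul]
          exact Finset.sum_congr rfl fun i _ => by simp only [star_mul, mul_assoc]
      _ = 1 := by simp only [F'.sum_eq, mul_one, F.sum_eq]
  · refine ContinuousLinearMap.ext fun x => ?_
    rw [TF_ofFintype, TF_apply, Fintype.sum_prod_type, Finset.sum_comm]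
    refine Finset.sum_congr rfl fun j _ => ?_
    rw [TF_apply, Finset.sum_mul]
    exact Finset.sum_congr rfl fun i _ => by simp only [star_mul, mul_assoc]

theorem InK.comp {T T' : Op M} (hT' : InK T') (hT : InK T) : InK (fun φ => T' (T φ)) := by
  have h1 : ∀ F : Fam M, InK (fun φ => TF F (T φ)) := by
    intro F
    let G : (Idx M → ℂ) → (Idx M → ℂ) := fun p i =>
      ∑ j, p (i.1, i.2.1 * star (F.m j), i.2.2.1, ev i.2.2.2 (F.m j))
    have hG : ∀ S : Op M, G (pt S) = pt (fun φ => TF F (S φ)) := fun S => funext fun i => by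
      simp [G, pt, TF_apply, ev_sum, ev_mul]
    show pt (fun φ => TF F (T φ)) ∈ K M
    rw [← hG]
    refine map_mem_closure ?_ hT ?_
    · exact continuous_pi fun i => continuous_finsetSum _ fun j _ => continuous_apply _
    · rintro - ⟨F', rfl⟩
      obtain ⟨F'', hF''⟩ := TF_comp F F'
      exact ⟨F'', by simp only [hG, ← hF'']⟩
  let R : (Idx M → ℂ) → (Idx M → ℂ) := fun p i =>
    p (⟨T i.1.1, _, hT.isCB i.1.2.choose_spec⟩, i.2)
  have hR : ∀ S : Op M, R (pt S) = pt (fun φ => S (T φ)) := fun S => rfl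
  have hc : IsClosed (R ⁻¹' K M) :=
    isClosed_closure.preimage (continuous_pi fun i => continuous_apply _)
  show pt (fun φ => T' (T φ)) ∈ K M
  rw [← hR]
  refine closure_minimal ?_ hc hT'
  rintro - ⟨F, rfl⟩
  show R (pt (TF F)) ∈ K M
  rw [hR]
  exact h1 F

theorem inK_id : InK (id : Op M) := by
  have h : TF (Fam.ofFintype (fun _ : Unit => (1 : Alg M)) (by simp)) = (id : Op M) :=
    funext fun φ => ContinuousLinearMap.ext fun x => by simp [TF_ofFintype]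
  exact h ▸ inK_TF _

theorem TF_convex (F F' : Fam M) {a b : ℝ} (ha : 0 ≤ a) (hb : 0 ≤ b) (hab : a + b = 1) :
    ∃ F'' : Fam M, ∀ φ x, TF F'' φ x = (a : ℂ) • TF F φ x + (b : ℂ) • TF F' φ x := by
  have hs : ∀ {r : ℝ}, 0 ≤ r → ((√r : ℝ) : ℂ) * ((√r : ℝ) : ℂ) = (r : ℂ) := fun hr => by
    rw [← Complex.ofReal_mul, Real.mul_self_sqrt hr]
  refine ⟨Fam.ofFintype (Sum.elim (fun j => ((√a : ℝ) : ℂ) • F.m j)
    (fun j => ((√b : ℝ) : ℂ) • F'.m j)) ?_, fun φ x => ?_⟩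
  · simp only [Fintype.sum_sum_type, Sum.elim_inl, Sum.elim_inr, star_smul, smul_mul_smul_comm,
      RCLike.star_def, Complex.conj_ofReal, hs ha, hs hb, ← Finset.smul_sum, F.sum_eq, F'.sum_eq,
      ← add_smul, ← Complex.ofReal_add, hab, Complex.ofReal_one, one_smul]
  · rw [TF_ofFintype, TF_apply, TF_apply]
    simp only [Fintype.sum_sum_type, Sum.elim_inl, Sum.elim_inr, star_smul, RCLike.star_def,
      Complex.conj_ofReal, mul_smul_comm, _root_.map_smul, smul_mul_assoc, smul_smul, hs ha, hs hb,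
      Finset.smul_sum]

theorem InK.convex {T T' : Op M} (hT : InK T) (hT' : InK T') {a b : ℝ} (ha : 0 ≤ a) (hb : 0 ≤ b)
    (hab : a + b = 1) : InK (fun φ => (a : ℂ) • T φ + (b : ℂ) • T' φ) := by
  let f : (Idx M → ℂ) → (Idx M → ℂ) → (Idx M → ℂ) := fun p q i => (a : ℂ) * p i + (b : ℂ) * q i
  have hf : ∀ S S' : Op M, f (pt S) (pt S') = pt (fun φ => (a : ℂ) • S φ + (b : ℂ) • S' φ) :=
    fun S S' => funext fun i => by
      simp only [f, pt, add_apply, smul_apply, ev_add, ev_smul, inner_add_right, inner_smul_right]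
  show pt _ ∈ K M
  rw [← hf]
  refine map_mem_closure₂ ?_ hT hT' ?_
  · exact continuous_pi fun i => ((continuous_const.mul ((continuous_apply i).comp continuous_fst)).add
      (continuous_const.mul ((continuous_apply i).comp continuous_snd)))
  · rintro - ⟨F, rfl⟩ - ⟨F', rfl⟩
    obtain ⟨F'', h⟩ := TF_convex F F' ha hb hab
    exact ⟨F'', funext fun i => by
      simp only [f, pt, h, ev_add, ev_smul, inner_add_right, inner_smul_right]⟩

/-- A set of coordinates of maps stable under averaging. -/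
def Invariant (A : Set (Idx M → ℂ)) : Prop :=
  ∀ T T' : Op M, InK T' → pt T ∈ A → pt (fun φ => T' (T φ)) ∈ A

/-- The coordinates of the maps with norm at most `a` at `φ`. -/
def Bd (φ : CbMap M) (a : ℝ) : Set (Idx M → ℂ) :=
  {q | ∀ (K L : ℕ) (Z : Fin K → Fin L → Alg M), Contr M Z → ∀ (η : Fin K → H) (ξ : Fin L → H),
    ∑ k, ‖η k‖ ^ 2 ≤ 1 → ∑ l, ‖ξ l‖ ^ 2 ≤ 1 → ‖∑ k, ∑ l, q (φ, Z k l, η k, ξ l)‖ ≤ a}

theorem pt_mem_Bd {T : Op M} {φ : CbMap M} {a : ℝ} : pt T ∈ Bd φ a ↔ IsCB M (T φ.1) a := by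
  simp only [Bd, IsCB, pt, Set.mem_ofPred_eq]

theorem isClosed_Bd (φ : CbMap M) (a : ℝ) : IsClosed (Bd φ a) := by
  simp only [Bd, Set.ofPred_forall]
  exact isClosed_iInter fun K => isClosed_iInter fun L => isClosed_iInter fun Z =>
    isClosed_iInter fun _ => isClosed_iInter fun η => isClosed_iInter fun ξ =>
    isClosed_iInter fun _ => isClosed_iInter fun _ =>
      isClosed_le (continuous_norm.comp (continuous_finsetSum _ fun k _ =>
        continuous_finsetSum _ fun l _ => continuous_apply _)) continuous_const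

/-- A minimal closed invariant set. -/
theorem exists_min_set (M : VonNeumannAlgebra H) :
    ∃ S : Set (Idx M → ℂ), S ⊆ K M ∧ IsClosed S ∧ S.Nonempty ∧ Invariant S ∧
      ∀ A ⊆ S, IsClosed A → A.Nonempty → Invariant A → S ⊆ A := by
  set 𝒮 : Set (Set (Idx M → ℂ)) := {A | A ⊆ K M ∧ IsClosed A ∧ A.Nonempty ∧ Invariant A}
  have hK : K M ∈ 𝒮 := ⟨subset_rfl, isClosed_closure, ⟨_, inK_id⟩, fun T T' hT' hT => hT'.comp hT⟩
  obtain ⟨S, hS⟩ := zorn_superset 𝒮 fun c hc hchain => by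
    rcases c.eq_empty_or_nonempty with rfl | hne
    · exact ⟨_, hK, fun s hs => absurd hs (Set.notMem_empty s)⟩
    refine ⟨⋂₀ c, ⟨?_, isClosed_sInter fun s hs => (hc hs).2.1, ?_, ?_⟩,
      fun s hs => Set.sInter_subset_of_mem hs⟩
    · obtain ⟨s, hs⟩ := hne
      exact (Set.sInter_subset_of_mem hs).trans (hc hs).1
    · have : Nonempty c := hne.to_subtype
      exact IsCompact.nonempty_sInter_of_directed_nonempty_isCompact_isClosed
        (fun s hs t ht => (hchain.total hs ht).elim (fun h => ⟨s, hs, subset_rfl, h⟩)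
          fun h => ⟨t, ht, h, subset_rfl⟩) (fun s hs => (hc hs).2.2.1)
        (fun s hs => (isCompact_K M).of_isClosed_subset (hc hs).2.1 (hc hs).1)
        (fun s hs => (hc hs).2.1)
    · exact fun T T' hT' hT => Set.mem_sInter.2 fun s hs =>
        (hc hs).2.2.2 T T' hT' (Set.mem_sInter.1 hT s hs)
  obtain ⟨⟨hSK, hScl, hSne, hSinv⟩, hmin⟩ := hS
  exact ⟨S, hSK, hScl, hSne, hSinv, fun A hA hAcl hAne hAinv =>
    hmin ⟨hA.trans hSK, hAcl, hAne, hAinv⟩ hA⟩

/-- In a minimal closed invariant set no average decreases any norm. -/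
theorem exists_minimal (M : VonNeumannAlgebra H) :
    ∃ R : Op M, InK R ∧ ∀ T, InK T → ∀ φ C a, IsCB M φ C → IsCB M (T (R φ)) a →
      IsCB M (R φ) a := by
  obtain ⟨S, hSK, hScl, ⟨p, hp⟩, hSinv, hmin⟩ := exists_min_set M
  obtain ⟨R, rfl⟩ := exists_op (hSK hp)
  refine ⟨R, hSK hp, fun T hT φ C a hφ h => ?_⟩
  set φ' : CbMap M := ⟨φ, C, hφ⟩ with hφ'
  set TR : Op M := fun ψ => T (R ψ) with hTR
  have h1 : pt TR ∈ Bd φ' a := (pt_mem_Bd (T := TR) (φ := φ')).2 h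
  have h2 : Invariant (S ∩ Bd φ' a) := fun T₁ T₂ hT₂ hm =>
    ⟨hSinv T₁ T₂ hT₂ hm.1,
      (pt_mem_Bd (T := fun ψ => T₂ (T₁ ψ)) (φ := φ')).2
        (hT₂.isCB ((pt_mem_Bd (T := T₁) (φ := φ')).1 hm.2))⟩
  have hA := hmin (S ∩ Bd φ' a) Set.inter_subset_left (hScl.inter (isClosed_Bd _ _))
    ⟨pt TR, hSinv R T hT hp, h1⟩ h2
  exact (pt_mem_Bd (T := R) (φ := φ')).1 (hA hp).2

end Vale.Agent.P082.Every.A
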